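import Mathlib

/-! # P122 / FI : the front end of the restriction theorem for positively curved surfaces in `ℝ³`.

Statement of Question 1, and the interfaces of the blocks:

* `PosCurved`, `surf`, `extension`, `Diag`, `Question1` : the final statement.
* `Phase h`, `Ext h f`, `LOC2 K` : the local estimate (output of the analysis).
* `GRAPH` : the global estimate on a small graph piece (eps-removal).
* `CHART` : local graph form of a positively curved surface.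
-/

open MeasureTheory Complex Set
open scoped ENNReal NNReal ContDiff

set_option linter.all false

namespace Vale.Agent.P122.FI

/-- physical space and frequency space -/
abbrev E3 := EuclideanSpace ℝ (Fin 3)

/-- `S` is a smooth embedded surface with definite second fundamental form: near each point it is the
zero set of a smooth function `F` whose differential does not vanish and whose second derivative is
positive definite on the tangent planes (the sign of `F` is free) -/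
def PosCurved (S : Set E3) : Prop :=
  ∀ p ∈ S, ∃ (U : Set E3) (F : E3 → ℝ), IsOpen U ∧ p ∈ U ∧ ContDiffOn ℝ ∞ F U ∧
    S ∩ U = {x | x ∈ U ∧ F x = 0} ∧
    ∀ x ∈ S ∩ U, fderiv ℝ F x ≠ 0 ∧
      ∀ v : E3, v ≠ 0 → fderiv ℝ F x v = 0 → 0 < fderiv ℝ (fderiv ℝ F) x v v

/-- the surface measure of `Sg`: the two-dimensional Hausdorff measure, normalised to be the area -/
noncomputable def surf (Sg : Set E3) : Measure E3 :=
  ENNReal.ofReal (Real.pi / 4) • (Measure.hausdorffMeasure 2 : Measure E3).restrict Sg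

/-- the Fourier extension operator -/
noncomputable def extension (Sg : Set E3) (f : E3 → ℂ) (x : E3) : ℂ :=
  ∫ ξ, f ξ * cexp (2 * Real.pi * I * (inner ℝ x ξ : ℝ)) ∂(surf Sg)

/-- the diagonal estimate with exponent `p` -/
def Diag (Sg : Set E3) (p : ℝ) : Prop :=
  ∃ C : ℝ≥0, ∀ f : E3 → ℂ, Measurable f →
    eLpNorm (extension Sg f) (ENNReal.ofReal p) volume ≤ C * eLpNorm f (ENNReal.ofReal p) (surf Sg)

/-- Question 1 -/
def Question1 : Prop :=
  ∀ S : Set E3, PosCurved S → ∀ Sg : Set E3, Sg ⊆ S → IsCompact Sg → ∀ p : ℝ, 3 < p → Diag Sg p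

/-! ## Graphs -/

/-- the square `[-r, r]²` -/
def sq (r : ℝ) : Set (ℝ × ℝ) := Icc (-r) r ×ˢ Icc (-r) r

/-- smooth phases with `h = |y|²/2 + O(|y|³)` at the origin -/
structure Phase (h : ℝ × ℝ → ℝ) : Prop where
  smooth : ContDiff ℝ ∞ h
  cubic : ∃ C : ℝ, ∀ y ∈ sq 1, |h y - (y.1 ^ 2 + y.2 ^ 2) / 2| ≤ C * (|y.1| + |y.2|) ^ 3

/-- the point of the graph -/
noncomputable def gr (h : ℝ × ℝ → ℝ) (y : ℝ × ℝ) : E3 := !₂[y.1, y.2, h y]

/-- the extension operator of the graph of `h`, with respect to the parameters -/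
noncomputable def Ext (h : ℝ × ℝ → ℝ) (f : ℝ × ℝ → ℂ) (x : E3) : ℂ :=
  ∫ y, f y * cexp (2 * Real.pi * I * ((x 0 * y.1 + x 1 * y.2 + x 2 * h y : ℝ) : ℂ))

/-- [AN + EN] the local estimate: `∫_{B_R} |E f|³ ≤ C R^(ε-1) ∫ |E f|² w_R` for bounded data `|f| ≤ 1` -/
def LOC2 (K : ℕ) : Prop := ∀ h : ℝ × ℝ → ℝ, Phase h → ∃ r : ℝ, 0 < r ∧ ∀ ε : ℝ, 0 < ε → ∃ C : ℝ, 0 ≤ C ∧
  ∀ (R : ℝ) (f : ℝ × ℝ → ℂ), 1 ≤ R → Measurable f → (∀ y, ‖f y‖ ≤ 1) → (∀ y, y ∉ sq r → f y = 0) →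
    ∫⁻ x in Metric.ball (0 : E3) R, ‖Ext h f x‖ₑ ^ 3 ≤
      ENNReal.ofReal (C * R ^ (ε - 1)) * ∫⁻ x : E3, ‖Ext h f x‖ₑ ^ 2 * ENNReal.ofReal (((1 + ‖x‖ / R) ^ K)⁻¹)

/-- [FI-A + FI-B] the global diagonal estimate on a small graph piece -/
def GRAPH : Prop := ∀ h : ℝ × ℝ → ℝ, Phase h → ∃ r : ℝ, 0 < r ∧ ∀ p : ℝ, 3 < p → ∃ C : ℝ≥0,
  ∀ f : ℝ × ℝ → ℂ, Measurable f → (∀ y, y ∉ sq r → f y = 0) →
    eLpNorm (Ext h f) (ENNReal.ofReal p) volume ≤ C * eLpNorm f (ENNReal.ofReal p) volume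

/-- [FI-C1] local graph form of a positively curved surface: an affine change of variables
`ξ ↦ q + A ξ` turns the surface near `q` into the graph of a phase -/
def CHART : Prop := ∀ S : Set E3, PosCurved S → ∀ q ∈ S, ∃ (A : E3 ≃L[ℝ] E3) (h : ℝ × ℝ → ℝ), Phase h ∧
  ∀ r : ℝ, 0 < r → ∃ V : Set E3, IsOpen V ∧ q ∈ V ∧ ∀ ξ ∈ S ∩ V, ∃ y ∈ sq r, ξ = q + A (gr h y)

/-- [FI-C2] transport of the estimate to a piece of the surface: `G y = q + A (gr h y)` -/
def PIECE : Prop := ∀ (q : E3) (A : E3 ≃L[ℝ] E3) (h : ℝ × ℝ → ℝ) (r p : ℝ) (C : ℝ≥0), Phase h → 0 < r → 1 < p →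
  (∀ f : ℝ × ℝ → ℂ, Measurable f → (∀ y, y ∉ sq r → f y = 0) →
    eLpNorm (Ext h f) (ENNReal.ofReal p) volume ≤ C * eLpNorm f (ENNReal.ofReal p) volume) →
  ∀ Sg : Set E3, MeasurableSet Sg → (∀ ξ ∈ Sg, ∃ y ∈ sq r, ξ = q + A (gr h y)) → Diag Sg p

end Vale.Agent.P122.FI
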