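import Mathlib

/-! # Plancherel for integrable square integrable functions (any euclidean space) -/

open MeasureTheory Complex Set FourierTransform SchwartzMap
open scoped ENNReal NNReal ContDiff

set_option linter.all false

namespace Vale.Agent.P122.FI

variable {V : Type*} [NormedAddCommGroup V] [InnerProductSpace ℝ V] [FiniteDimensional ℝ V]
  [MeasurableSpace V] [BorelSpace V]

theorem continuous_four {g : V → ℂ} (h1 : Integrable g) : Continuous (𝓕 g) := by
  have := VectorFourier.fourierIntegral_continuous (𝕜 := ℝ) (V := V) (W := V) (E := ℂ)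
    Real.continuous_fourierChar (L := innerₗ V) (μ := volume) (by
      exact continuous_inner) h1
  exact this

theorem lp_fourier_ae_eq (g : V → ℂ) (h1 : Integrable g) (h2 : MemLp g 2) :
    ∀ᵐ x ∂(volume : Measure V), (𝓕 (h2.toLp g : Lp ℂ 2 (volume : Measure V)) : Lp ℂ 2 (volume : Measure V)) x = 𝓕 g x := by
  have hcont : Continuous (𝓕 g) := continuous_four h1
  apply ae_eq_of_integral_contDiff_smul_eq
  · exact (Lp.memLp _).locallyIntegrable (by norm_num)
  · exact hcont.locallyIntegrable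
  · intro φ φ_smooth φ_cpt
    have hg₁ : HasCompactSupport (Complex.ofRealCLM ∘ φ) := φ_cpt.comp_left rfl
    have hg₂ : ContDiff ℝ ((⊤ : ℕ∞) : WithTop ℕ∞) (Complex.ofRealCLM ∘ φ) := Complex.ofRealCLM.contDiff.comp φ_smooth
    set ψ : 𝓢(V, ℂ) := hg₁.toSchwartzMap hg₂ with hψ
    have key := congrArg (fun T : 𝓢'(V, ℂ) => T ψ)
      (MeasureTheory.Lp.fourier_toTemperedDistribution_eq (h2.toLp g : Lp ℂ 2 (volume : Measure V)))
    simp only [TemperedDistribution.fourier_apply, Lp.toTemperedDistribution_apply] at key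
    have e1 : ∫ x, φ x • (𝓕 (h2.toLp g : Lp ℂ 2 (volume : Measure V)) : Lp ℂ 2 (volume : Measure V)) x =
        ∫ x, ψ x • (𝓕 (h2.toLp g : Lp ℂ 2 (volume : Measure V)) : Lp ℂ 2 (volume : Measure V)) x := by
      apply integral_congr_ae
      filter_upwards with x
      simp [hψ]
    rw [e1, ← key]
    have e2 : ∫ x, (𝓕 ψ) x • ((h2.toLp g : Lp ℂ 2 (volume : Measure V)) x) = ∫ x, (𝓕 ψ) x • g x := by
      apply integral_congr_ae
      filter_upwards [h2.coeFn_toLp] with x hx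
      rw [hx]
    rw [e2]
    have e3 : ∫ x, φ x • 𝓕 g x = ∫ x, ψ x • 𝓕 g x := by
      apply integral_congr_ae
      filter_upwards with x
      simp only [Complex.real_smul, hψ, HasCompactSupport.toSchwartzMap_toFun, Function.comp_apply, Complex.ofRealCLM_apply, smul_eq_mul]
    rw [e3]
    have := VectorFourier.integral_fourierIntegral_smul_eq_flip (𝕜 := ℝ) (V := V) (W := V) (F := ℂ)
      (e := Real.fourierChar) (μ := volume) (ν := volume) (L := innerₗ V) (f := fun x => ψ x) (g := g)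
      Real.continuous_fourierChar continuous_inner ψ.integrable h1
    rw [SchwartzMap.fourier_coe]
    rw [flip_innerₗ] at this
    exact this

theorem lintegral_enorm_sq_fourier (g : V → ℂ) (h1 : Integrable g) (h2 : MemLp g 2) :
    ∫⁻ x, ‖𝓕 g x‖ₑ ^ 2 = ∫⁻ x, ‖g x‖ₑ ^ 2 := by
  have hn : ‖(𝓕 (h2.toLp g : Lp ℂ 2 (volume : Measure V)) : Lp ℂ 2 (volume : Measure V))‖ₑ
      = ‖(h2.toLp g : Lp ℂ 2 (volume : Measure V))‖ₑ := by
    rw [← ofReal_norm, ← ofReal_norm, Lp.norm_fourier_eq]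
  have h3 : eLpNorm (𝓕 g) 2 volume = eLpNorm g 2 volume := by
    rw [Lp.enorm_def, Lp.enorm_def] at hn
    rw [← eLpNorm_congr_ae (lp_fourier_ae_eq g h1 h2), hn]
    exact eLpNorm_congr_ae h2.coeFn_toLp
  have h4 : ∀ f : V → ℂ, eLpNorm f 2 volume ^ 2 = ∫⁻ x, ‖f x‖ₑ ^ 2 := by
    intro f
    rw [eLpNorm_eq_lintegral_rpow_enorm_toReal (by norm_num) (by norm_num)]
    simp only [ENNReal.toReal_ofNat]
    rw [← ENNReal.rpow_natCast, ← ENNReal.rpow_mul]
    norm_num
  rw [← h4, ← h4, h3]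

/-- the inverse Fourier integral -/
theorem inv_eq_int (g : V → ℂ) (x : V) :
    𝓕⁻ g x = ∫ ξ, g ξ * cexp (2 * Real.pi * I * ((inner ℝ x ξ : ℝ) : ℂ)) := by
  rw [Real.fourierInv_eq']
  refine integral_congr_ae (Filter.Eventually.of_forall fun ξ => ?_)
  simp only [smul_eq_mul]
  rw [mul_comm, real_inner_comm]
  congr 2
  push_cast
  ring

/-- Plancherel with the positive sign in the exponential. -/
theorem planch (g : V → ℂ) (h1 : Integrable g) (h2 : MemLp g 2) :
    ∫⁻ x, ‖∫ ξ, g ξ * cexp (2 * Real.pi * I * ((inner ℝ x ξ : ℝ) : ℂ))‖ₑ ^ 2 = ∫⁻ ξ, ‖g ξ‖ₑ ^ 2 := by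
  rw [← lintegral_enorm_sq_fourier g h1 h2]
  have h : ∀ x : V, (∫ ξ, g ξ * cexp (2 * Real.pi * I * ((inner ℝ x ξ : ℝ) : ℂ))) = 𝓕 g (-x) := by
    intro x
    rw [← inv_eq_int, Real.fourierInv_eq_fourier_neg]
  simp_rw [h]
  exact (lintegral_neg_eq_self (fun x : V => ‖𝓕 g x‖ₑ ^ 2) (μ := volume))

end Vale.Agent.P122.FI
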