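import Vale.Agent.P122.FI.Defs
import Vale.Agent.P122.FI.Pl

/-! # Localisation to a ball: `F = φ(x/R) Ext h f` is the Fourier transform of a function `g` on the `1/R`-neighbourhood
of the graph, `|g| ≤ C R`, `∫ |g|² ≤ C ∫ |Ext h f|² w_R` -/

open MeasureTheory Complex Set FourierTransform SchwartzMap
open scoped ENNReal NNReal ContDiff

set_option linter.all false

namespace Vale.Agent.P122.FI

theorem memLp_bdd_supp {α : Type*} [MeasurableSpace α] {μ : Measure α} {f : α → ℂ}
    (hf : Measurable f) {B : ℝ} (hB : ∀ x, ‖f x‖ ≤ B) {s : Set α}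
    (hs : MeasurableSet s) (hμs : μ s < ⊤) (hsupp : ∀ x, x ∉ s → f x = 0) (p : ℝ≥0∞) :
    MemLp f p μ := by
  have h1 : f = s.indicator f := by
    ext x
    by_cases hx : x ∈ s
    · simp [hx]
    · simp [hx, hsupp x hx]
  rw [h1, memLp_indicator_iff_restrict hs]
  have : IsFiniteMeasure (μ.restrict s) := ⟨by simpa only [MeasurableSet.univ, Measure.restrict_apply, Set.univ_inter] using hμs⟩
  exact MemLp.of_bound hf.aestronglyMeasurable.restrict B (Filter.Eventually.of_forall hB)

theorem integrable_bdd_supp {α : Type*} [MeasurableSpace α] {μ : Measure α} {f : α → ℂ}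
    (hf : Measurable f) {B : ℝ} (hB : ∀ x, ‖f x‖ ≤ B) {s : Set α}
    (hs : MeasurableSet s) (hμs : μ s < ⊤) (hsupp : ∀ x, x ∉ s → f x = 0) : Integrable f μ :=
  memLp_one_iff_integrable.mp (memLp_bdd_supp hf hB hs hμs hsupp 1)

/-- the character -/
noncomputable def ec (t : ℝ) : ℂ := cexp (2 * Real.pi * I * (t : ℂ))

theorem norm_ec (t : ℝ) : ‖ec t‖ = 1 := by
  unfold ec
  rw [show 2 * (Real.pi : ℂ) * I * (t : ℂ) = ((2 * Real.pi * t : ℝ) : ℂ) * I by push_cast; ring]
  exact Complex.norm_exp_ofReal_mul_I _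

theorem ec_add (s t : ℝ) : ec (s + t) = ec s * ec t := by
  unfold ec
  rw [← Complex.exp_add]
  congr 1
  push_cast
  ring

theorem ec_zero : ec 0 = 1 := by
  simp [ec]

theorem continuous_ec : Continuous ec := by
  unfold ec
  fun_prop

theorem ec_re (t : ℝ) : (ec t).re = Real.cos (2 * Real.pi * t) := by
  unfold ec
  rw [show 2 * (Real.pi : ℂ) * I * (t : ℂ) = ((2 * Real.pi * t : ℝ) : ℂ) * I by push_cast; ring]
  exact Complex.exp_ofReal_mul_I_re _

/-- a smooth bump supported in the ball of radius `1/8` -/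
noncomputable def bmp : ContDiffBump (0 : E3) := ⟨1 / 16, 1 / 8, by norm_num, by norm_num⟩

/-- the bump of integral one -/
noncomputable def bb (ξ : E3) : ℂ := ((bmp.normed volume ξ : ℝ) : ℂ)

theorem bb_nonneg (ξ : E3) : 0 ≤ bmp.normed volume ξ := bmp.nonneg_normed ξ

theorem continuous_bb : Continuous bb := by
  unfold bb
  exact Complex.continuous_ofReal.comp (bmp.continuous_normed)

theorem bb_smooth : ContDiff ℝ ∞ bb := by
  unfold bb
  exact Complex.ofRealCLM.contDiff.comp (bmp.contDiff_normed)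

theorem bb_cpt : HasCompactSupport bb := by
  have h : HasCompactSupport (bmp.normed (volume : Measure E3)) := bmp.hasCompactSupport_normed
  exact h.comp_left (g := fun t : ℝ => (t : ℂ)) (by simp)

theorem bb_supp {ξ : E3} (h : bb ξ ≠ 0) : ‖ξ‖ < 1 / 8 := by
  unfold bb at h
  have h1 : ξ ∈ Function.support (bmp.normed (volume : Measure E3)) := by
    rw [Function.mem_support]
    intro h0
    exact h (by rw [h0]; simp)
  rw [bmp.support_normed_eq] at h1
  simpa [bmp] using h1

theorem integrable_bb : Integrable bb := continuous_bb.integrable_of_hasCompactSupport bb_cpt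

theorem integral_bmp : ∫ ξ, bmp.normed (volume : Measure E3) ξ = 1 := bmp.integral_normed

theorem exists_bb_bdd : ∃ B : ℝ, 0 ≤ B ∧ ∀ ξ, ‖bb ξ‖ ≤ B := by
  obtain ⟨B, hB⟩ := continuous_bb.bounded_above_of_compact_support bb_cpt
  exact ⟨B, (norm_nonneg _).trans (hB 0), hB⟩

/-- the localising function -/
noncomputable def ph (x : E3) : ℂ := ∫ ξ, bb ξ * ec (inner ℝ x ξ)

theorem ph_eq (x : E3) : ph x = 𝓕⁻ bb x := by
  rw [inv_eq_int]
  rfl

theorem ph_lower {x : E3} (hx : ‖x‖ ≤ 1) : 1 / 2 ≤ ‖ph x‖ := by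
  have h1 : (ph x).re = ∫ ξ, bmp.normed volume ξ * Real.cos (2 * Real.pi * inner ℝ x ξ) := by
    unfold ph
    have hi : Integrable fun ξ => bb ξ * ec (inner ℝ x ξ) := by
      apply integrable_bb.mul_bdd (c := 1)
      · exact (continuous_ec.comp (by fun_prop)).aestronglyMeasurable
      · exact Filter.Eventually.of_forall fun ξ => (norm_ec _).le
    have h2 := integral_re hi
    rw [show (∫ ξ, bb ξ * ec (inner ℝ x ξ)).re = RCLike.re (∫ ξ, bb ξ * ec (inner ℝ x ξ)) from rfl, ← h2]
    refine integral_congr_ae (Filter.Eventually.of_forall fun ξ => ?_)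
    simp only [bb]
    rw [show RCLike.re (((bmp.normed volume ξ : ℝ) : ℂ) * ec (inner ℝ x ξ)) =
      (((bmp.normed volume ξ : ℝ) : ℂ) * ec (inner ℝ x ξ)).re from rfl, Complex.re_ofReal_mul, ec_re]
  have h3 : 1 / 2 ≤ (ph x).re := by
    rw [h1]
    have hb : Integrable (bmp.normed (volume : Measure E3)) := bmp.integrable_normed
    have h4 : ∫ ξ, bmp.normed (volume : Measure E3) ξ * (1 / 2) = 1 / 2 := by
      rw [integral_mul_const, integral_bmp, one_mul]
    rw [← h4]
    apply integral_mono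
    · exact hb.mul_const _
    · apply hb.mul_bdd (c := 1)
      · exact (Real.continuous_cos.comp (by fun_prop)).aestronglyMeasurable
      · exact Filter.Eventually.of_forall fun ξ => Real.abs_cos_le_one _
    · intro ξ
      simp only
      by_cases h0 : bb ξ = 0
      · have : bmp.normed (volume : Measure E3) ξ = 0 := by
          unfold bb at h0
          exact_mod_cast h0
        rw [this]
        simp
      · have h5 := bb_supp h0
        apply mul_le_mul_of_nonneg_left _ (bb_nonneg ξ)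
        have h6 : |(inner ℝ x ξ : ℝ)| ≤ 1 / 8 := by
          refine (abs_real_inner_le_norm x ξ).trans ?_
          have := norm_nonneg ξ
          have := norm_nonneg x
          nlinarith
        have h7 : |2 * Real.pi * (inner ℝ x ξ : ℝ)| ≤ 1 := by
          rw [abs_mul, abs_of_pos (by positivity : (0:ℝ) < 2 * Real.pi)]
          have := Real.pi_pos
          have := Real.pi_le_four
          nlinarith [abs_nonneg (inner ℝ x ξ : ℝ)]
        have h8 := Real.one_sub_sq_div_two_le_cos (x := 2 * Real.pi * (inner ℝ x ξ : ℝ))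
        have h9 : (2 * Real.pi * (inner ℝ x ξ : ℝ)) ^ 2 ≤ 1 := by
          rw [← sq_abs]
          nlinarith [abs_nonneg (2 * Real.pi * (inner ℝ x ξ : ℝ))]
        linarith
  exact h3.trans (Complex.re_le_norm _)

/-- `ph` is a Schwartz function -/
noncomputable def phS : 𝓢(E3, ℂ) := 𝓕⁻ (bb_cpt.toSchwartzMap bb_smooth)

theorem ph_eq_phS (x : E3) : ph x = phS x := by
  rw [ph_eq]
  unfold phS
  rw [SchwartzMap.fourierInv_coe]
  rfl

theorem continuous_ph : Continuous ph := by
  have : ph = phS := by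
    ext x
    exact ph_eq_phS x
  rw [this]
  exact phS.continuous

theorem ph_decay (K : ℕ) : ∃ C : ℝ, 0 ≤ C ∧ ∀ x, ‖ph x‖ ≤ C * ((1 + ‖x‖) ^ K)⁻¹ := by
  refine ⟨2 ^ K * (Finset.Iic (K, 0)).sup (fun m => SchwartzMap.seminorm ℝ m.1 m.2) phS, by positivity, ?_⟩
  intro x
  have h := SchwartzMap.one_add_le_sup_seminorm_apply (𝕜 := ℝ) (m := (K, 0)) (k := K) (n := 0) le_rfl le_rfl phS x
  rw [norm_iteratedFDeriv_zero] at h
  rw [ph_eq_phS]
  have hp : 0 < (1 + ‖x‖) ^ K := by positivity
  rw [← div_eq_mul_inv, le_div_iff₀ hp, mul_comm]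
  exact h

theorem ph_bdd : ∃ C : ℝ, 0 ≤ C ∧ ∀ x, ‖ph x‖ ≤ C := by
  obtain ⟨C, h0, h⟩ := ph_decay 0
  exact ⟨C, h0, fun x => by simpa using h x⟩

end Vale.Agent.P122.FI
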