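import Vale.Agent.P122.FI.Defs

/-! # P122 / FI-C1 : local graph form of a positively curved surface

`chart : CHART`. -/

open MeasureTheory Complex Set Filter
open scoped ENNReal NNReal ContDiff Topology

set_option linter.all false

namespace Vale.Agent.P122.FI

section Taylor

variable {E : Type*} [NormedAddCommGroup E] [NormedSpace ℝ E]

/-- a function with vanishing value at the origin and derivative `O(‖w‖ ^ n)` is `O(‖w‖ ^ (n+1))` -/
theorem ch_mvt {G : Type*} [NormedAddCommGroup G] [NormedSpace ℝ G] {g : E → G} {g' : E → E →L[ℝ] G}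
    {C r : ℝ} {n : ℕ} (hC : 0 ≤ C)
    (hd : ∀ w, ‖w‖ < r → HasFDerivAt g (g' w) w) (h0 : g 0 = 0)
    (hb : ∀ w, ‖w‖ < r → ‖g' w‖ ≤ C * ‖w‖ ^ n) (w : E) (hw : ‖w‖ < r) :
    ‖g w‖ ≤ C * ‖w‖ ^ (n + 1) := by
  have hconv : Convex ℝ (Metric.closedBall (0 : E) ‖w‖) := convex_closedBall _ _
  have key := hconv.norm_image_sub_le_of_norm_hasFDerivWithin_le (f := g) (f' := g')
    (C := C * ‖w‖ ^ n) (x := 0) (y := w) ?_ ?_ ?_ ?_
  · simpa [h0, pow_succ, mul_assoc] using key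
  · intro x hx
    have hx' : ‖x‖ ≤ ‖w‖ := by simpa using hx
    exact (hd x (lt_of_le_of_lt hx' hw)).hasFDerivWithinAt
  · intro x hx
    have hx' : ‖x‖ ≤ ‖w‖ := by simpa using hx
    refine (hb x (lt_of_le_of_lt hx' hw)).trans ?_
    gcongr
  · simp
  · simp

/-- second order Taylor expansion with cubic remainder -/
theorem ch_taylor2 {f : E → ℝ} {q : E} (hf : ContDiffAt ℝ 3 f q) :
    ∃ C r : ℝ, 0 ≤ C ∧ 0 < r ∧ ∀ w, ‖w‖ < r →
      |f (q + w) - f q - fderiv ℝ f q w - 1 / 2 * fderiv ℝ (fderiv ℝ f) q w w| ≤ C * ‖w‖ ^ 3 := by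
  -- symmetry
  have hsymm : IsSymmSndFDerivAt ℝ f q := by
    refine ContDiffAt.isSymmSndFDerivAt (hf.of_le (by norm_num : (2 : WithTop ℕ∞) ≤ 3)) ?_
    simp
  -- first and second derivatives are smooth
  have hf1 : ContDiffAt ℝ 2 (fderiv ℝ f) q := hf.fderiv_right (by norm_num)
  have hf2 : ContDiffAt ℝ 1 (fderiv ℝ (fderiv ℝ f)) q := hf1.fderiv_right (by norm_num)
  obtain ⟨K, t, ht, hLip⟩ := hf2.exists_lipschitzOnWith
  have hd0 : ∀ᶠ x in 𝓝 q, DifferentiableAt ℝ f x := by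
    filter_upwards [(hf.of_le (by norm_num : (1 : WithTop ℕ∞) ≤ 3)).eventually (by norm_num)] with x hx
    exact hx.differentiableAt (by norm_num)
  have hd1 : ∀ᶠ x in 𝓝 q, DifferentiableAt ℝ (fderiv ℝ f) x := by
    filter_upwards [(hf1.of_le (by norm_num : (1 : WithTop ℕ∞) ≤ 2)).eventually (by norm_num)] with x hx
    exact hx.differentiableAt (by norm_num)
  obtain ⟨r, hr, hball⟩ := Metric.eventually_nhds_iff.1 ((hd0.and hd1).and ht)
  have hin : ∀ w : E, ‖w‖ < r → dist (q + w) q < r := by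
    intro w hw
    simpa [dist_eq_norm] using hw
  set B := fderiv ℝ (fderiv ℝ f) q with hB
  have hqt : q ∈ t := mem_of_mem_nhds ht
  -- second order
  have h2 : ∀ w, ‖w‖ < r → ‖fderiv ℝ (fderiv ℝ f) (q + w) - B‖ ≤ K * ‖w‖ ^ 1 := by
    intro w hw
    have h := hLip.dist_le_mul (q + w) (hball (hin w hw)).2 q hqt
    simpa [dist_eq_norm, hB] using h
  -- first order
  have h1 : ∀ w, ‖w‖ < r → ‖fderiv ℝ f (q + w) - fderiv ℝ f q - B w‖ ≤ K * ‖w‖ ^ 2 := by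
    intro w hw
    refine ch_mvt (g := fun w => fderiv ℝ f (q + w) - fderiv ℝ f q - B w)
      (g' := fun w => fderiv ℝ (fderiv ℝ f) (q + w) - B) K.coe_nonneg ?_ (by simp) ?_ w hw
    · intro w hw
      have hda := (hball (hin w hw)).1.2.hasFDerivAt
      have h3 : HasFDerivAt (fun w : E => q + w) (ContinuousLinearMap.id ℝ E) w :=
        (hasFDerivAt_id w).const_add q
      have h4 := hda.comp w h3
      simp only [ContinuousLinearMap.comp_id] at h4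
      exact (h4.sub_const _).sub B.hasFDerivAt
    · exact h2
  have h0 : ∀ w, ‖w‖ < r →
      ‖f (q + w) - f q - fderiv ℝ f q w - 1 / 2 * B w w‖ ≤ K * ‖w‖ ^ 3 := by
    intro w hw
    refine ch_mvt (g := fun w => f (q + w) - f q - fderiv ℝ f q w - 1 / 2 * B w w)
      (g' := fun w => fderiv ℝ f (q + w) - fderiv ℝ f q - B w) K.coe_nonneg ?_ (by simp) ?_ w hw
    · intro w hw
      have hda := (hball (hin w hw)).1.1.hasFDerivAt
      have h3 : HasFDerivAt (fun w : E => q + w) (ContinuousLinearMap.id ℝ E) w :=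
        (hasFDerivAt_id w).const_add q
      have h4 := hda.comp w h3
      simp only [ContinuousLinearMap.comp_id] at h4
      have h5 : HasFDerivAt (fun w : E => B w w) ((B w) + (B.flip w)) w := by
        have := B.hasFDerivAt (x := w)
        have h6 := this.clm_apply (hasFDerivAt_id w)
        simpa [add_comm] using h6
      have h7 : HasFDerivAt (fun w : E => 1 / 2 * B w w) (B w) w := by
        have h8 := h5.const_mul (1 / 2 : ℝ)
        have h9 : (1 / 2 : ℝ) • ((B w) + (B.flip w)) = B w := by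
          ext v
          have : B v w = B w v := hsymm v w
          simp [this]
          ring
        rwa [h9] at h8
      exact ((h4.sub_const _).sub (fderiv ℝ f q).hasFDerivAt).sub h7
    · exact h1
  exact ⟨K, r, K.coe_nonneg, hr, fun w hw => by simpa [Real.norm_eq_abs] using h0 w hw⟩

end Taylor


/-- a frame adapted to the tangent plane and to the second derivative -/
theorem ch_frame (L : E3 →L[ℝ] ℝ) (B : E3 →L[ℝ] E3 →L[ℝ] ℝ) (hL : L ≠ 0)
    (hs : ∀ v w, B v w = B w v) (hpos : ∀ v : E3, v ≠ 0 → L v = 0 → 0 < B v v) :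
    ∃ A : E3 ≃L[ℝ] E3, (∀ v, L (A v) = - v 2) ∧
      ∃ a b c : ℝ, ∀ v, B (A v) (A v) = v 0 ^ 2 + v 1 ^ 2 + v 2 * (a * v 0 + b * v 1 + c * v 2) := by
  -- two independent vectors in the kernel
  have hfr : Module.finrank ℝ (LinearMap.ker (L : E3 →ₗ[ℝ] ℝ)) = 2 := by
    have h := Module.Dual.finrank_ker_add_one_of_ne_zero (K := ℝ) (f := (L : E3 →ₗ[ℝ] ℝ)) (by
      intro h; apply hL; ext v; exact congrArg (fun g : E3 →ₗ[ℝ] ℝ => g v) h)
    have h3 : Module.finrank ℝ E3 = 3 := by simp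
    omega
  let bb := Module.finBasisOfFinrankEq ℝ _ hfr
  obtain ⟨b1, hb1⟩ : ∃ b : E3, b = (bb 0 : E3) := ⟨_, rfl⟩
  obtain ⟨b2, hb2⟩ : ∃ b : E3, b = (bb 1 : E3) := ⟨_, rfl⟩
  have hLb1 : L b1 = 0 := by rw [hb1]; exact (bb 0).2
  have hLb2 : L b2 = 0 := by rw [hb2]; exact (bb 1).2
  have hind : ∀ s t : ℝ, s • b1 + t • b2 = 0 → s = 0 ∧ t = 0 := by
    intro s t h
    have h1 : s • bb 0 + t • bb 1 = 0 := by
      apply Subtype.ext
      simpa [hb1, hb2] using h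
    have h2 := Fintype.linearIndependent_iff.1 bb.linearIndependent ![s, t] (by
      simpa [Fin.sum_univ_two] using h1)
    exact ⟨by simpa using h2 0, by simpa using h2 1⟩
  have hb1ne : b1 ≠ 0 := by
    intro h
    have := hind 1 0 (by simp [h])
    simp at this
  have hp1 : 0 < B b1 b1 := hpos b1 hb1ne hLb1
  obtain ⟨e1, he1⟩ : ∃ e : E3, e = (Real.sqrt (B b1 b1))⁻¹ • b1 := ⟨_, rfl⟩
  have hLe1 : L e1 = 0 := by simp [he1, hLb1]
  have hs1 : Real.sqrt (B b1 b1) ≠ 0 := (Real.sqrt_pos.2 hp1).ne'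
  have hB11 : B e1 e1 = 1 := by
    have := Real.mul_self_sqrt hp1.le
    simp only [he1, map_smul, ContinuousLinearMap.smul_apply, smul_eq_mul]
    field_simp
    nlinarith [this]
  obtain ⟨c2, hc2⟩ : ∃ e : E3, e = b2 - (B b2 e1) • e1 := ⟨_, rfl⟩
  have hLc2 : L c2 = 0 := by simp [hc2, hLb2, hLe1]
  have hc2ne : c2 ≠ 0 := by
    intro h
    have h1 : (-(B b2 e1) * (Real.sqrt (B b1 b1))⁻¹) • b1 + (1 : ℝ) • b2 = 0 := by
      rw [← h, hc2, he1]
      module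
    have := (hind _ _ h1).2
    norm_num at this
  have hp2 : 0 < B c2 c2 := hpos c2 hc2ne hLc2
  have hB1c : B c2 e1 = 0 := by
    simp [hc2, hB11]
  obtain ⟨e2, he2⟩ : ∃ e : E3, e = (Real.sqrt (B c2 c2))⁻¹ • c2 := ⟨_, rfl⟩
  have hLe2 : L e2 = 0 := by simp [he2, hLc2]
  have hs2 : Real.sqrt (B c2 c2) ≠ 0 := (Real.sqrt_pos.2 hp2).ne'
  have hB22 : B e2 e2 = 1 := by
    have := Real.mul_self_sqrt hp2.le
    simp only [he2, map_smul, ContinuousLinearMap.smul_apply, smul_eq_mul]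
    field_simp
    nlinarith [this]
  have hB21 : B e2 e1 = 0 := by simp [he2, hB1c]
  have hB12 : B e1 e2 = 0 := by rw [hs]; exact hB21
  -- third vector
  obtain ⟨n, hn⟩ : ∃ n, L n ≠ 0 := by
    by_contra h
    push Not at h
    exact hL (ContinuousLinearMap.ext (by simpa using h))
  obtain ⟨e3, he3⟩ : ∃ e : E3, e = (-(L n)⁻¹) • n := ⟨_, rfl⟩
  have hLe3 : L e3 = -1 := by
    simp [he3, hn]
  let A0 : E3 →ₗ[ℝ] E3 :=
    { toFun := fun v => v 0 • e1 + v 1 • e2 + v 2 • e3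
      map_add' := by intro v w; simp; module
      map_smul' := by intro s v; simp; module }
  have hA0 : ∀ v : E3, A0 v = v 0 • e1 + v 1 • e2 + v 2 • e3 := fun v => rfl
  have hinj : Function.Injective A0 := by
    rw [injective_iff_map_eq_zero]
    intro v hv
    rw [hA0] at hv
    have h2 : v 2 = 0 := by
      have := congrArg L hv
      simpa [hLe1, hLe2, hLe3] using this
    have h0 : v 0 = 0 := by
      have := congrArg (fun w => B w e1) hv
      simpa [hB11, hB21, h2] using this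
    have h1 : v 1 = 0 := by
      have := congrArg (fun w => B w e2) hv
      simpa [hB12, hB22, h2] using this
    ext i
    fin_cases i <;> simp [h0, h1, h2]
  let A1 : E3 ≃ₗ[ℝ] E3 := LinearEquiv.ofInjectiveEndo A0 hinj
  have hA1 : ∀ v : E3, A1 v = v 0 • e1 + v 1 • e2 + v 2 • e3 := fun v => by
    show (LinearEquiv.ofInjectiveEndo A0 hinj) v = _
    rw [LinearEquiv.coe_ofInjectiveEndo]; exact hA0 v
  refine ⟨A1.toContinuousLinearEquiv, ?_, 2 * B e1 e3, 2 * B e2 e3, B e3 e3, ?_⟩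
  · intro v
    show L (A1 v) = _
    rw [hA1]
    simp [hLe1, hLe2, hLe3]
  · intro v
    show B (A1 v) (A1 v) = _
    rw [hA1]
    simp only [map_add, map_smul, ContinuousLinearMap.add_apply, ContinuousLinearMap.smul_apply,
      smul_eq_mul, hB11, hB12, hB21, hB22, hs e3 e1, hs e3 e2]
    ring


theorem ch_inv (f' : (ℝ × ℝ) × ℝ →L[ℝ] ℝ) (h : f' (0, 1) ≠ 0) :
    (f' ∘L .inr ℝ (ℝ × ℝ) ℝ).IsInvertible := by
  refine ⟨ContinuousLinearEquiv.equivOfInverse (f' ∘L .inr ℝ (ℝ × ℝ) ℝ)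
    ((f' (0, 1))⁻¹ • ContinuousLinearMap.id ℝ ℝ) ?_ ?_, ?_⟩
  · intro x
    have : f' (0, x) = x * f' (0, 1) := by
      have h2 : ((0 : ℝ × ℝ), x) = x • ((0 : ℝ × ℝ), (1 : ℝ)) := by simp
      rw [h2, map_smul, smul_eq_mul]
    simp [this]
    field_simp
  · intro x
    have : f' (0, (f' (0, 1))⁻¹ * x) = ((f' (0, 1))⁻¹ * x) * f' (0, 1) := by
      have h2 : ((0 : ℝ × ℝ), (f' (0, 1))⁻¹ * x) = ((f' (0, 1))⁻¹ * x) • ((0 : ℝ × ℝ), (1 : ℝ)) := by simp
      rw [h2, map_smul, smul_eq_mul]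
    simp [this]
    field_simp
  · ext; rfl

/-- the implicit function, smooth on a whole neighbourhood -/
theorem ch_implicit {G : (ℝ × ℝ) × ℝ → ℝ} (hG : ∀ᶠ w in 𝓝 (0 : (ℝ × ℝ) × ℝ), ContDiffAt ℝ ∞ G w)
    (hG0 : G 0 = 0) (hG1 : ∀ w, fderiv ℝ G 0 w = - w.2) :
    ∃ ψ : ℝ × ℝ → ℝ, ψ 0 = 0 ∧ fderiv ℝ ψ 0 = 0 ∧
      (∀ᶠ y in 𝓝 (0 : ℝ × ℝ), ContDiffAt ℝ ∞ ψ y ∧ G (y, ψ y) = 0) ∧
      ∀ᶠ v in 𝓝 (0 : (ℝ × ℝ) × ℝ), G v = 0 → ψ v.1 = v.2 := by
  have hn : (∞ : WithTop ℕ∞) ≠ 0 := by simp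
  have cdf : ContDiffAt ℝ ∞ G 0 := hG.self_of_nhds
  have hi : (fderiv ℝ G 0 ∘L .inr ℝ (ℝ × ℝ) ℝ).IsInvertible := by
    apply ch_inv
    rw [hG1]; simp
  obtain ⟨ψ, hψ⟩ : ∃ ψ, ψ = cdf.implicitFunction hn hi := ⟨_, rfl⟩
  have hψ0 : ψ 0 = 0 := by
    have := cdf.implicitFunction_apply_self hn hi
    rw [hψ]; exact this
  have hψd : ContDiffAt ℝ ∞ ψ 0 := by
    have := cdf.contDiffAt_implicitFunction hn hi
    rw [hψ]; exact this
  have hψeq : ∀ᶠ x in 𝓝 (0 : ℝ × ℝ), G (x, ψ x) = 0 := by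
    have := cdf.eventually_apply_implicitFunction hn hi
    rw [hψ]
    filter_upwards [this] with x hx
    rw [hx, hG0]
  have hψu : ∀ᶠ v in 𝓝 (0 : (ℝ × ℝ) × ℝ), G v = 0 → ψ v.1 = v.2 := by
    have := cdf.eventually_apply_eq_iff_implicitFunction hn hi
    rw [hψ]
    filter_upwards [this] with v hv h
    exact hv.1 (by rw [h, hG0])
  have hψf : fderiv ℝ ψ 0 = 0 := by
    have := cdf.hasStrictFDerivAt_implicitFunction hn hi
    have h2 := this.hasFDerivAt.fderiv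
    have h3 : (fderiv ℝ G 0 ∘L .inl ℝ (ℝ × ℝ) ℝ) = 0 := by
      ext <;> simp [hG1]
    rw [h3] at h2
    simp only [ContinuousLinearMap.comp_zero, neg_zero] at h2
    rw [hψ]; exact h2
  -- smoothness nearby
  have hcont : ∀ᶠ y in 𝓝 (0 : ℝ × ℝ), ContinuousAt ψ y := by
    have h1 : ContDiffAt ℝ 1 ψ 0 := hψd.of_le (by exact_mod_cast le_top)
    filter_upwards [h1.eventually (by norm_num)] with y hy
    exact hy.continuousAt
  have hgr : Tendsto (fun y : ℝ × ℝ => (y, ψ y)) (𝓝 0) (𝓝 (0 : (ℝ × ℝ) × ℝ)) := by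
    have h1 : ContinuousAt (fun y : ℝ × ℝ => (y, ψ y)) 0 :=
      continuousAt_id.prodMk hψd.continuousAt
    have h2 := h1.tendsto
    simp only [hψ0] at h2
    exact h2
  have hGd : ∀ᶠ w in 𝓝 (0 : (ℝ × ℝ) × ℝ), fderiv ℝ G w (0, 1) ≠ 0 := by
    have h1 : ContDiffAt ℝ 0 (fderiv ℝ G) 0 := cdf.fderiv_right (by simp)
    have h2 : ContinuousAt (fun w => fderiv ℝ G w (0, 1)) 0 :=
      h1.continuousAt.clm_apply continuousAt_const
    have h3 : fderiv ℝ G 0 (0, 1) ≠ 0 := by rw [hG1]; simp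
    exact h2.eventually_ne h3
  refine ⟨ψ, hψ0, hψf, ?_, hψu⟩
  have hψeq2 := eventually_eventually_nhds.2 hψeq
  filter_upwards [hψeq, hψeq2, hcont, hgr.eventually hG, hgr.eventually hGd] with y h1 h1' h2 h3 h4
  refine ⟨?_, h1⟩
  have hi' : (fderiv ℝ G (y, ψ y) ∘L .inr ℝ (ℝ × ℝ) ℝ).IsInvertible := ch_inv _ h4
  have hcd := h3.contDiffAt_implicitFunction hn hi'
  refine hcd.congr_of_eventuallyEq ?_
  have hu := h3.eventually_apply_eq_iff_implicitFunction hn hi'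
  have ht : Tendsto (fun x : ℝ × ℝ => (x, ψ x)) (𝓝 y) (𝓝 (y, ψ y)) :=
    (continuousAt_id.prodMk h2).tendsto
  filter_upwards [ht.eventually hu, h1'] with x hx hx'
  have := hx.1 (by rw [hx', h1])
  exact this.symm


/-- **[FI-C1]** -/
theorem chart : CHART := by
  intro S hS q hq
  obtain ⟨U, F, hUo, hqU, hFU, hSU, hder⟩ := hS q hq
  obtain ⟨hL, hpos⟩ := hder q ⟨hq, hqU⟩
  have hFq : F q = 0 := by
    have : q ∈ S ∩ U := ⟨hq, hqU⟩
    rw [hSU] at this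
    exact this.2
  have hFat : ∀ x ∈ U, ContDiffAt ℝ ∞ F x := fun x hx => hFU.contDiffAt (hUo.mem_nhds hx)
  have hF3 : ContDiffAt ℝ 3 F q := (hFat q hqU).of_le (WithTop.coe_le_coe.2 (le_top : (3 : ℕ∞) ≤ ⊤))
  have hsymm : IsSymmSndFDerivAt ℝ F q := by
    refine ContDiffAt.isSymmSndFDerivAt (hF3.of_le (by norm_num : (2 : WithTop ℕ∞) ≤ 3)) ?_
    simp
  obtain ⟨A, hA1, a, b, c, hA2⟩ := ch_frame (fderiv ℝ F q) (fderiv ℝ (fderiv ℝ F) q) hL
    (fun v w => hsymm v w) hpos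
  obtain ⟨Ct, rt, hCt, hrt, hTay⟩ := ch_taylor2 hF3
  -- the linear map of coordinates
  let e : ((ℝ × ℝ) × ℝ) →ₗ[ℝ] E3 :=
    { toFun := fun w => !₂[w.1.1, w.1.2, w.2]
      map_add' := by intro v w; ext i; fin_cases i <;> simp
      map_smul' := by intro s v; ext i; fin_cases i <;> simp }
  let ec : ((ℝ × ℝ) × ℝ) →L[ℝ] E3 := LinearMap.toContinuousLinearMap e
  have hec : ∀ w, ec w = !₂[w.1.1, w.1.2, w.2] := fun w => rfl
  let T : ((ℝ × ℝ) × ℝ) →L[ℝ] E3 := (A : E3 →L[ℝ] E3).comp ec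
  have hT : ∀ w, T w = A (!₂[w.1.1, w.1.2, w.2]) := fun w => rfl
  obtain ⟨G, hGdef⟩ : ∃ G : (ℝ × ℝ) × ℝ → ℝ, G = fun w => F (q + T w) := ⟨_, rfl⟩
  have htend : Tendsto (fun w => q + T w) (𝓝 0) (𝓝 q) := by
    have h1 : ContinuousAt (fun w : (ℝ × ℝ) × ℝ => q + T w) 0 := by fun_prop
    have h2 := h1.tendsto
    simpa using h2
  have haff : ∀ w, ContDiffAt ℝ ∞ (fun w => q + T w) w := by
    intro w; exact contDiffAt_const.add T.contDiff.contDiffAt
  have hG : ∀ᶠ w in 𝓝 (0 : (ℝ × ℝ) × ℝ), ContDiffAt ℝ ∞ G w := by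
    filter_upwards [htend.eventually (hUo.mem_nhds hqU)] with w hw
    rw [hGdef]
    exact (hFat _ hw).comp w (haff w)
  have hG0 : G 0 = 0 := by simp [hGdef, hFq]
  have hG1 : ∀ w, fderiv ℝ G 0 w = - w.2 := by
    intro w
    have h1 : HasFDerivAt F (fderiv ℝ F (q + T 0)) (q + T 0) := by
      have : q + T 0 = q := by simp
      rw [this]
      exact ((hFat q hqU).differentiableAt (by simp)).hasFDerivAt
    have h2 : HasFDerivAt (fun w => q + T w) T 0 := T.hasFDerivAt.const_add q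
    have h3 := h1.comp (0 : (ℝ × ℝ) × ℝ) h2
    have h4 : HasFDerivAt G ((fderiv ℝ F (q + T 0)).comp T) 0 := by
      rw [hGdef]; exact h3
    rw [h4.fderiv]
    have h5 : q + T 0 = q := by simp
    rw [h5, ContinuousLinearMap.comp_apply, hT, hA1]
    simp
  obtain ⟨ψ, hψ0, hψf, hψs, hψu⟩ := ch_implicit hG hG0 hG1
  -- first order bound
  have hψsm : ContDiffAt ℝ ∞ ψ 0 := hψs.self_of_nhds.1
  have hψ1 : ∃ C r : ℝ, 0 ≤ C ∧ 0 < r ∧ ∀ y : ℝ × ℝ, ‖y‖ < r → |ψ y| ≤ C * ‖y‖ ^ 2 := by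
    obtain ⟨C, r, hC, hr, h⟩ := ch_taylor2 (hψsm.of_le (WithTop.coe_le_coe.2 (le_top : (3 : ℕ∞) ≤ ⊤)) : ContDiffAt ℝ 3 ψ 0)
    refine ⟨C + ‖fderiv ℝ (fderiv ℝ ψ) 0‖, min r 1, by positivity, by positivity, fun y hy => ?_⟩
    have hy1 : ‖y‖ < r := lt_of_lt_of_le hy (min_le_left _ _)
    have hy2 : ‖y‖ ≤ 1 := (lt_of_lt_of_le hy (min_le_right _ _)).le
    have h1 := h y hy1
    rw [zero_add, hψ0, hψf] at h1
    simp only [ContinuousLinearMap.zero_apply, sub_zero] at h1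
    have h2 : |fderiv ℝ (fderiv ℝ ψ) 0 y y| ≤ ‖fderiv ℝ (fderiv ℝ ψ) 0‖ * ‖y‖ ^ 2 := by
      have := ContinuousLinearMap.le_opNorm₂ (fderiv ℝ (fderiv ℝ ψ) 0) y y
      rw [Real.norm_eq_abs] at this
      calc _ ≤ _ := this
        _ = _ := by ring
    have h3 : ‖y‖ ^ 3 ≤ ‖y‖ ^ 2 := pow_le_pow_of_le_one (norm_nonneg _) hy2 (by norm_num)
    have h4 : |ψ y| ≤ |ψ y - 1 / 2 * fderiv ℝ (fderiv ℝ ψ) 0 y y| + |1 / 2 * fderiv ℝ (fderiv ℝ ψ) 0 y y| := by
      have := abs_add_le (ψ y - 1 / 2 * fderiv ℝ (fderiv ℝ ψ) 0 y y) (1 / 2 * fderiv ℝ (fderiv ℝ ψ) 0 y y)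
      simpa using this
    rw [abs_mul] at h4
    have h5 : |(1 / 2 : ℝ)| = 1 / 2 := by norm_num
    rw [h5] at h4
    have h6 : 0 ≤ ‖fderiv ℝ (fderiv ℝ ψ) 0‖ * ‖y‖ ^ 2 := by positivity
    calc |ψ y| ≤ C * ‖y‖ ^ 3 + 1 / 2 * (‖fderiv ℝ (fderiv ℝ ψ) 0‖ * ‖y‖ ^ 2) := by
            linarith
      _ ≤ C * ‖y‖ ^ 2 + ‖fderiv ℝ (fderiv ℝ ψ) 0‖ * ‖y‖ ^ 2 := by
            have := mul_le_mul_of_nonneg_left h3 hC
            linarith
      _ = _ := by ring
  obtain ⟨C1, r1, hC1, hr1, hψb⟩ := hψ1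
  -- the cubic estimate
  have hcub : ∃ C r : ℝ, 0 ≤ C ∧ 0 < r ∧ ∀ y : ℝ × ℝ, ‖y‖ < r →
      |ψ y - (y.1 ^ 2 + y.2 ^ 2) / 2| ≤ C * (|y.1| + |y.2|) ^ 3 := by
    obtain ⟨r2, hr2, hψs2⟩ := Metric.eventually_nhds_iff.1 hψs
    obtain ⟨M, hM⟩ : ∃ M, M = ‖T‖ + 1 := ⟨_, rfl⟩
    have hMpos : 0 < M := by rw [hM]; positivity
    -- constants
    refine ⟨Ct * (M * (1 + C1)) ^ 3 + C1 * (|a| + |b| + |c| * C1), min (min r1 r2) (min 1 (rt / (M * (1 + C1)))),
      by positivity, by positivity, fun y hy => ?_⟩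
    have hyr1 : ‖y‖ < r1 := lt_of_lt_of_le hy ((min_le_left _ _).trans (min_le_left _ _))
    have hyr2 : ‖y‖ < r2 := lt_of_lt_of_le hy ((min_le_left _ _).trans (min_le_right _ _))
    have hy1 : ‖y‖ ≤ 1 := (lt_of_lt_of_le hy ((min_le_right _ _).trans (min_le_left _ _))).le
    have hyrt : ‖y‖ < rt / (M * (1 + C1)) :=
      lt_of_lt_of_le hy ((min_le_right _ _).trans (min_le_right _ _))
    obtain ⟨z, hz⟩ : ∃ z, z = ψ y := ⟨_, rfl⟩
    have hGz : G (y, z) = 0 := by rw [hz]; exact (hψs2 (by simpa [dist_eq_norm] using hyr2)).2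
    have hzb : |z| ≤ C1 * ‖y‖ ^ 2 := by rw [hz]; exact hψb y hyr1
    have hzb' : |z| ≤ C1 * ‖y‖ := by
      refine hzb.trans ?_
      have : ‖y‖ ^ 2 ≤ ‖y‖ := by nlinarith [norm_nonneg y]
      exact mul_le_mul_of_nonneg_left this hC1
    have hTn : ‖T (y, z)‖ ≤ M * (1 + C1) * ‖y‖ := by
      have h1 : ‖T (y, z)‖ ≤ ‖T‖ * ‖(y, z)‖ := T.le_opNorm _
      have h2 : ‖(y, z)‖ ≤ (1 + C1) * ‖y‖ := by
        rw [Prod.norm_def]
        apply max_le
        · nlinarith [norm_nonneg y, mul_nonneg hC1 (norm_nonneg y)]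
        · rw [Real.norm_eq_abs]
          show |z| ≤ _
          nlinarith [norm_nonneg y]
      calc _ ≤ ‖T‖ * ‖(y, z)‖ := h1
        _ ≤ M * ((1 + C1) * ‖y‖) := by
            apply mul_le_mul _ h2 (norm_nonneg _) hMpos.le
            rw [hM]; linarith
        _ = _ := by ring
    have hTr : ‖T (y, z)‖ < rt := by
      refine lt_of_le_of_lt hTn ?_
      have hpos : 0 < M * (1 + C1) := by positivity
      rw [lt_div_iff₀ hpos] at hyrt
      linarith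
    have htay := hTay _ hTr
    have hGF : F (q + T (y, z)) = 0 := by
      have := hGz; rw [hGdef] at this; exact this
    have hLz : fderiv ℝ F q (T (y, z)) = - z := by
      rw [hT, hA1]; simp
    have hBz : fderiv ℝ (fderiv ℝ F) q (T (y, z)) (T (y, z)) =
        y.1 ^ 2 + y.2 ^ 2 + z * (a * y.1 + b * y.2 + c * z) := by
      rw [hT, hA2]; simp
    rw [hGF, hFq, hLz, hBz] at htay
    have hn1 : |y.1| ≤ ‖y‖ := norm_fst_le y
    have hn2 : |y.2| ≤ ‖y‖ := norm_snd_le y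
    have hns : ‖y‖ ≤ |y.1| + |y.2| := by
      rw [Prod.norm_def]
      apply max_le
      · rw [Real.norm_eq_abs]; linarith [abs_nonneg y.2]
      · rw [Real.norm_eq_abs]; linarith [abs_nonneg y.1]
    have hcube : ‖y‖ ^ 3 ≤ (|y.1| + |y.2|) ^ 3 := pow_le_pow_left₀ (norm_nonneg _) hns 3
    have hmid : |z * (a * y.1 + b * y.2 + c * z)| ≤ C1 * (|a| + |b| + |c| * C1) * ‖y‖ ^ 3 := by
      rw [abs_mul]
      have h1 : |a * y.1 + b * y.2 + c * z| ≤ (|a| + |b| + |c| * C1) * ‖y‖ := by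
        calc _ ≤ |a * y.1| + |b * y.2| + |c * z| := by
              exact (abs_add_le _ _).trans (by gcongr; exact abs_add_le _ _)
          _ ≤ |a| * ‖y‖ + |b| * ‖y‖ + |c| * (C1 * ‖y‖) := by
              rw [abs_mul, abs_mul, abs_mul]
              gcongr
          _ = _ := by ring
      calc _ ≤ (C1 * ‖y‖ ^ 2) * ((|a| + |b| + |c| * C1) * ‖y‖) := by
            apply mul_le_mul hzb h1 (abs_nonneg _) (by positivity)
        _ = _ := by ring
    have hmain : |ψ y - (y.1 ^ 2 + y.2 ^ 2) / 2| ≤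
        Ct * ‖T (y, z)‖ ^ 3 + |z * (a * y.1 + b * y.2 + c * z)| := by
      rw [← hz]
      have h1 : z - (y.1 ^ 2 + y.2 ^ 2) / 2 =
          (0 - 0 - -z - 1 / 2 * (y.1 ^ 2 + y.2 ^ 2 + z * (a * y.1 + b * y.2 + c * z))) +
            1 / 2 * (z * (a * y.1 + b * y.2 + c * z)) := by ring
      rw [h1]
      refine (abs_add_le _ _).trans ?_
      have h2 : |1 / 2 * (z * (a * y.1 + b * y.2 + c * z))| ≤ |z * (a * y.1 + b * y.2 + c * z)| := by
        rw [abs_mul]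
        have : |(1 / 2 : ℝ)| = 1 / 2 := by norm_num
        rw [this]
        linarith [abs_nonneg (z * (a * y.1 + b * y.2 + c * z))]
      linarith
    calc _ ≤ Ct * ‖T (y, z)‖ ^ 3 + |z * (a * y.1 + b * y.2 + c * z)| := hmain
      _ ≤ Ct * (M * (1 + C1) * ‖y‖) ^ 3 + C1 * (|a| + |b| + |c| * C1) * ‖y‖ ^ 3 := by
          have := pow_le_pow_left₀ (norm_nonneg _) hTn 3
          have := mul_le_mul_of_nonneg_left this hCt
          linarith
      _ = (Ct * (M * (1 + C1)) ^ 3 + C1 * (|a| + |b| + |c| * C1)) * ‖y‖ ^ 3 := by ring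
      _ ≤ _ := by
          apply mul_le_mul_of_nonneg_left hcube
          positivity
  obtain ⟨C3, r3, hC3, hr3, hcube⟩ := hcub
  -- the cutoff
  obtain ⟨r4, hr4, hψs4⟩ := Metric.eventually_nhds_iff.1 hψs
  obtain ⟨ρ, hρ⟩ : ∃ ρ, ρ = min r3 r4 := ⟨_, rfl⟩
  have hρpos : 0 < ρ := by rw [hρ]; positivity
  let χ : ContDiffBump (0 : ℝ × ℝ) := ⟨ρ / 3, ρ / 2, by positivity, by linarith⟩
  obtain ⟨h, hh⟩ : ∃ h : ℝ × ℝ → ℝ, h = fun y => (y.1 ^ 2 + y.2 ^ 2) / 2 +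
      χ y * (ψ y - (y.1 ^ 2 + y.2 ^ 2) / 2) := ⟨_, rfl⟩
  have hquad : ContDiff ℝ ∞ (fun y : ℝ × ℝ => (y.1 ^ 2 + y.2 ^ 2) / 2) := by fun_prop
  have hphase : Phase h := by
    constructor
    · rw [hh, contDiff_iff_contDiffAt]
      intro y
      by_cases hy : ‖y‖ < ρ
      · have h1 : ContDiffAt ℝ ∞ ψ y :=
          (hψs4 (by simpa [dist_eq_norm] using lt_of_lt_of_le hy (by rw [hρ]; exact min_le_right _ _))).1
        exact hquad.contDiffAt.add (χ.contDiffAt.mul (h1.sub hquad.contDiffAt))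
      · have hz : ∀ᶠ x in 𝓝 y, χ x = 0 := by
          have hop : IsOpen {x : ℝ × ℝ | ρ / 2 < ‖x‖} := isOpen_lt continuous_const continuous_norm
          have hm : y ∈ {x : ℝ × ℝ | ρ / 2 < ‖x‖} := by
            simp only [Set.mem_setOf_eq]
            push Not at hy
            linarith
          filter_upwards [hop.mem_nhds hm] with x hx
          apply χ.zero_of_le_dist
          show ρ / 2 ≤ dist x 0
          rw [dist_eq_norm, sub_zero]
          exact (show ρ / 2 < ‖x‖ from hx).le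
        refine hquad.contDiffAt.congr_of_eventuallyEq ?_
        filter_upwards [hz] with x hx
        simp [hx]
    · refine ⟨C3, fun y _ => ?_⟩
      have h1 : h y - (y.1 ^ 2 + y.2 ^ 2) / 2 = χ y * (ψ y - (y.1 ^ 2 + y.2 ^ 2) / 2) := by
        rw [hh]; ring
      rw [h1]
      by_cases hy : ‖y‖ < ρ
      · rw [abs_mul]
        have h2 : |χ y| ≤ 1 := by
          rw [abs_of_nonneg χ.nonneg]; exact χ.le_one
        have h3 := hcube y (lt_of_lt_of_le hy (by rw [hρ]; exact min_le_left _ _))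
        calc _ ≤ 1 * |ψ y - (y.1 ^ 2 + y.2 ^ 2) / 2| := by gcongr
          _ ≤ _ := by rw [one_mul]; exact h3
      · have hz : χ y = 0 := by
          apply χ.zero_of_le_dist
          push Not at hy
          show ρ / 2 ≤ dist y 0
          rw [dist_eq_norm, sub_zero]
          linarith
        rw [hz, zero_mul, abs_zero]
        positivity
  refine ⟨A, h, hphase, fun r hr => ?_⟩
  -- the neighbourhood
  let D : E3 →ₗ[ℝ] ((ℝ × ℝ) × ℝ) :=
    { toFun := fun v => ((v 0, v 1), v 2)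
      map_add' := by intro v w; simp
      map_smul' := by intro s v; simp }
  let Dc : E3 →L[ℝ] ((ℝ × ℝ) × ℝ) := LinearMap.toContinuousLinearMap D
  have hDc : ∀ v, Dc v = ((v 0, v 1), v 2) := fun v => rfl
  have hTD : ∀ ξ : E3, q + T (Dc (A.symm (ξ - q))) = ξ := by
    intro ξ
    rw [hT, hDc]
    have : (!₂[(A.symm (ξ - q)) 0, (A.symm (ξ - q)) 1, (A.symm (ξ - q)) 2] : E3) = A.symm (ξ - q) := by
      ext i; fin_cases i <;> simp
    show q + A (!₂[(A.symm (ξ - q)) 0, (A.symm (ξ - q)) 1, (A.symm (ξ - q)) 2]) = ξ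
    rw [this]; simp
  have hcontD : ContinuousAt (fun ξ : E3 => Dc (A.symm (ξ - q))) q := by fun_prop
  have htD : Tendsto (fun ξ : E3 => Dc (A.symm (ξ - q))) (𝓝 q) (𝓝 0) := by
    have := hcontD.tendsto
    simpa using this
  have hev : ∀ᶠ ξ in 𝓝 q, ξ ∈ U ∧
      (G (Dc (A.symm (ξ - q))) = 0 → ψ (Dc (A.symm (ξ - q))).1 = (Dc (A.symm (ξ - q))).2) ∧
      ‖Dc (A.symm (ξ - q))‖ < min r (ρ / 3) := by
    have h3 : ∀ᶠ w in 𝓝 (0 : (ℝ × ℝ) × ℝ), ‖w‖ < min r (ρ / 3) := by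
      have : Metric.ball (0 : (ℝ × ℝ) × ℝ) (min r (ρ / 3)) ∈ 𝓝 (0 : (ℝ × ℝ) × ℝ) :=
        Metric.ball_mem_nhds _ (by positivity)
      filter_upwards [this] with w hw
      simpa using hw
    filter_upwards [hUo.mem_nhds hqU, htD.eventually hψu, htD.eventually h3] with ξ h1 h2 h3
    exact ⟨h1, h2, h3⟩
  obtain ⟨V, hV, hVo, hqV⟩ := mem_nhds_iff.1 hev
  refine ⟨V, hVo, hqV, fun ξ hξ => ?_⟩
  obtain ⟨hξU, hξψ, hξn⟩ := hV hξ.2
  have hFξ : F ξ = 0 := by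
    have : ξ ∈ S ∩ U := ⟨hξ.1, hξU⟩
    rw [hSU] at this
    exact this.2
  obtain ⟨w, hw⟩ : ∃ w, w = Dc (A.symm (ξ - q)) := ⟨_, rfl⟩
  rw [← hw] at hξψ hξn
  have hξw : q + T w = ξ := by rw [hw]; exact hTD ξ
  have hGw : G w = 0 := by
    rw [hGdef]
    show F (q + T w) = 0
    rw [hξw, hFξ]
  have hψw : ψ w.1 = w.2 := hξψ hGw
  have hw1 : ‖w.1‖ ≤ ‖w‖ := norm_fst_le w
  have hw1r : ‖w.1‖ < r := lt_of_le_of_lt hw1 (lt_of_lt_of_le hξn (min_le_left _ _))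
  have hw1ρ : ‖w.1‖ < ρ / 3 := lt_of_le_of_lt hw1 (lt_of_lt_of_le hξn (min_le_right _ _))
  have hhw : h w.1 = w.2 := by
    have hχ : χ w.1 = 1 := by
      apply χ.one_of_mem_closedBall
      simp only [Metric.mem_closedBall, dist_zero_right]
      exact hw1ρ.le
    rw [hh]
    simp only [hχ, hψw]
    ring
  refine ⟨w.1, ?_, ?_⟩
  · have h1 : |w.1.1| ≤ ‖w.1‖ := norm_fst_le w.1
    have h2 : |w.1.2| ≤ ‖w.1‖ := norm_snd_le w.1
    have h3 := abs_le.1 (h1.trans hw1r.le)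
    have h4 := abs_le.1 (h2.trans hw1r.le)
    exact ⟨⟨h3.1, h3.2⟩, ⟨h4.1, h4.2⟩⟩
  · rw [← hξw, hT]
    unfold gr
    rw [hhw]

end Vale.Agent.P122.FI
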