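import Vale.Agent.P122.FI.Top
import Vale.Agent.P122.FI.Chart
import Vale.Agent.P122.H800.Piece
import Vale.Agent.P122.H567.Graph

/-! # Question 1 from the local estimate and the abstract epsilon removal -/

namespace Vale.Agent.P122.FI

theorem question1_of_loc {K : ℕ} (hE : Vale.Agent.P122.H567.EpsRem K) (hL : LOC2 K) : Question1 :=
  question1_of (Vale.Agent.P122.H567.graph_of hE hL) chart Vale.Agent.P122.H800.piece

end Vale.Agent.P122.FI
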