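import Vale.Agent.P122.FI.Defs

/-! # P122 / FI : the unit sphere and the paraboloid are positively curved (helper119) -/

open MeasureTheory Complex Set
open scoped ENNReal NNReal ContDiff

namespace Vale.Agent.P122.FI

/-- the unit sphere -/
theorem posCurved_sphere : PosCurved (Metric.sphere (0 : E3) 1) := by
  intro p _
  refine ⟨univ, fun x => ‖x‖ ^ 2 - 1, isOpen_univ, mem_univ p, ?_, ?_, ?_⟩
  · exact ((contDiff_norm_sq ℝ).sub contDiff_const).contDiffOn
  · ext x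
    simp only [mem_inter_iff, mem_univ, and_true, mem_ofPred_eq, mem_sphere_zero_iff_norm, true_and]
    constructor
    · intro h
      rw [h]
      norm_num
    · intro h
      have h1 : ‖x‖ ^ 2 = 1 ^ 2 := by linarith
      exact (sq_eq_sq₀ (norm_nonneg x) zero_le_one).1 h1
  · have e1 : fderiv ℝ (fun x : E3 => ‖x‖ ^ 2 - 1) = fun x => ((2:ℝ) • innerSL ℝ) x := by
      funext x
      rw [fderiv_sub_const, fderiv_norm_sq_apply]
      ext v
      show (2 • innerSL ℝ x : E3 →L[ℝ] ℝ) v = 2 * inner ℝ x v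
      rw [two_nsmul]
      show inner ℝ x v + inner ℝ x v = 2 * inner ℝ x v
      ring
    intro x hx
    have hx1 : ‖x‖ = 1 := mem_sphere_zero_iff_norm.1 hx.1
    rw [e1]
    refine ⟨?_, ?_⟩
    · intro h
      have h1 := congrArg (fun L : E3 →L[ℝ] ℝ => L x) h
      have h2 : (((2:ℝ) • innerSL ℝ) x : E3 →L[ℝ] ℝ) x = 2 * inner ℝ x x := rfl
      have h4 : (0 : E3 →L[ℝ] ℝ) x = 0 := rfl
      simp only [h2, h4, real_inner_self_eq_norm_sq, hx1] at h1
      norm_num at h1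
    · intro v hv _
      have h3 : fderiv ℝ (fun x : E3 => ((2:ℝ) • innerSL ℝ) x) x = (2:ℝ) • innerSL ℝ :=
        ((2:ℝ) • innerSL ℝ (E := E3)).fderiv
      rw [h3]
      have h2 : (((2:ℝ) • innerSL ℝ) v : E3 →L[ℝ] ℝ) v = 2 * inner ℝ v v := rfl
      rw [h2, real_inner_self_eq_norm_sq]
      have : 0 < ‖v‖ := norm_pos_iff.2 hv
      positivity

/-- the paraboloid -/
theorem posCurved_paraboloid : PosCurved {x : E3 | x 2 = x 0 ^ 2 + x 1 ^ 2} := by
  intro p _
  set P : Fin 3 → E3 →L[ℝ] ℝ := fun i => EuclideanSpace.proj i with hP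
  have hPa : ∀ i (x : E3), P i x = x i := fun _ _ => rfl
  refine ⟨univ, fun x => P 0 x ^ 2 + P 1 x ^ 2 - P 2 x, isOpen_univ, mem_univ p, ?_, ?_, ?_⟩
  · exact ((((P 0).contDiff.pow 2).add ((P 1).contDiff.pow 2)).sub (P 2).contDiff).contDiffOn
  · ext x
    simp only [mem_inter_iff, mem_univ, and_true, mem_ofPred_eq, true_and, hPa]
    constructor
    · intro h
      linarith
    · intro h
      linarith
  · have e1 : fderiv ℝ (fun x : E3 => P 0 x ^ 2 + P 1 x ^ 2 - P 2 x) =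
        fun x => (2 * P 0 x) • P 0 + (2 * P 1 x) • P 1 - P 2 := by
      funext x
      have h0 : HasFDerivAt (fun x : E3 => P 0 x ^ 2) ((2 * P 0 x) • P 0) x := by
        have := (P 0).hasFDerivAt (x := x).pow 2
        simpa using this
      have h1 : HasFDerivAt (fun x : E3 => P 1 x ^ 2) ((2 * P 1 x) • P 1) x := by
        have := (P 1).hasFDerivAt (x := x).pow 2
        simpa using this
      exact ((h0.add h1).sub (P 2).hasFDerivAt).fderiv
    intro x hx
    rw [e1]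
    refine ⟨?_, ?_⟩
    · intro h
      have h1 := congrArg (fun L : E3 →L[ℝ] ℝ => L (EuclideanSpace.single 2 1)) h
      have h2 : ((2 * P 0 x) • P 0 + (2 * P 1 x) • P 1 - P 2 : E3 →L[ℝ] ℝ)
          (EuclideanSpace.single 2 1) = 2 * P 0 x * (EuclideanSpace.single 2 (1:ℝ) : E3) 0 +
            2 * P 1 x * (EuclideanSpace.single 2 (1:ℝ) : E3) 1 -
            (EuclideanSpace.single 2 (1:ℝ) : E3) 2 := rfl
      have h4 : (0 : E3 →L[ℝ] ℝ) (EuclideanSpace.single 2 1) = 0 := rfl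
      simp only [h2, h4] at h1
      simp at h1
    · intro v hv hv0
      have h3 : HasFDerivAt (fun x : E3 => (2 * P 0 x) • P 0 + (2 * P 1 x) • P 1 - P 2)
          (((2:ℝ) • P 0).smulRight (P 0) + ((2:ℝ) • P 1).smulRight (P 1)) x := by
        have g0 : HasFDerivAt (fun x : E3 => (2 * P 0 x) • P 0) (((2:ℝ) • P 0).smulRight (P 0)) x :=
          (((2:ℝ) • P 0).smulRight (P 0)).hasFDerivAt
        have g1 : HasFDerivAt (fun x : E3 => (2 * P 1 x) • P 1) (((2:ℝ) • P 1).smulRight (P 1)) x :=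
          (((2:ℝ) • P 1).smulRight (P 1)).hasFDerivAt
        exact (g0.add g1).sub_const _
      rw [h3.fderiv]
      have h5 : (((2:ℝ) • P 0).smulRight (P 0) + ((2:ℝ) • P 1).smulRight (P 1) :
          E3 →L[ℝ] E3 →L[ℝ] ℝ) v v = 2 * v 0 * v 0 + 2 * v 1 * v 1 := rfl
      rw [h5]
      have h6 : ((2 * P 0 x) • P 0 + (2 * P 1 x) • P 1 - P 2 : E3 →L[ℝ] ℝ) v =
          2 * x 0 * v 0 + 2 * x 1 * v 1 - v 2 := rfl
      rw [h6] at hv0
      by_contra hcon
      have a0 : v 0 ^ 2 ≤ 0 := by nlinarith [sq_nonneg (v 1)]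
      have a1 : v 1 ^ 2 ≤ 0 := by nlinarith [sq_nonneg (v 0)]
      have b0 : v 0 = 0 := by
        have := le_antisymm a0 (sq_nonneg _)
        exact pow_eq_zero_iff (two_ne_zero) |>.1 this
      have b1 : v 1 = 0 := by
        have := le_antisymm a1 (sq_nonneg _)
        exact pow_eq_zero_iff (two_ne_zero) |>.1 this
      rw [b0, b1] at hv0
      apply hv
      ext i
      fin_cases i
      · exact b0
      · exact b1
      · show v 2 = 0
        linarith

/-! ### the local form (helper117's `PosCurvedPiece`, unfolded) -/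

/-- the local form: compact, and near each of its points contained in a smooth surface whose second
fundamental form is definite at the point -/
def PosPiece (Sg : Set E3) : Prop :=
  IsCompact Sg ∧ ∀ p ∈ Sg, ∃ (U : Set E3) (F : E3 → ℝ), IsOpen U ∧ p ∈ U ∧ ContDiffOn ℝ ∞ F U ∧
    (∀ x ∈ Sg ∩ U, F x = 0) ∧ fderiv ℝ F p ≠ 0 ∧
    ∀ v : E3, v ≠ 0 → fderiv ℝ F p v = 0 → 0 < fderiv ℝ (fderiv ℝ F) p v v

/-- every compact subset of a smooth embedded surface with definite second fundamental form -/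
theorem posPiece_of {S Sg : Set E3} (hS : PosCurved S) (h : Sg ⊆ S) (hc : IsCompact Sg) :
    PosPiece Sg := by
  refine ⟨hc, fun p hp => ?_⟩
  obtain ⟨U, F, h1, h2, h3, h4, h5⟩ := hS p (h hp)
  refine ⟨U, F, h1, h2, h3, fun x hx => ?_, (h5 p ⟨h hp, h2⟩).1, (h5 p ⟨h hp, h2⟩).2⟩
  have : x ∈ S ∩ U := ⟨h hx.1, hx.2⟩
  rw [h4] at this
  exact this.2

/-- the unit sphere -/
theorem posPiece_sphere : PosPiece (Metric.sphere (0 : E3) 1) :=
  posPiece_of posCurved_sphere le_rfl (isCompact_sphere 0 1)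

/-- compact pieces of the paraboloid -/
theorem posPiece_paraboloid (r : ℝ) :
    PosPiece {x : E3 | x 2 = x 0 ^ 2 + x 1 ^ 2 ∧ |x 0| ≤ r ∧ |x 1| ≤ r} := by
  refine posPiece_of posCurved_paraboloid (fun x hx => hx.1) ?_
  have hcl : IsClosed {x : E3 | x 2 = x 0 ^ 2 + x 1 ^ 2 ∧ |x 0| ≤ r ∧ |x 1| ≤ r} := by
    have hc : ∀ i : Fin 3, Continuous fun x : E3 => x i := fun i =>
      (EuclideanSpace.proj (𝕜 := ℝ) i).continuous
    refine (isClosed_eq (hc 2) (((hc 0).pow 2).add ((hc 1).pow 2))).inter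
      ((isClosed_le (hc 0).abs continuous_const).inter (isClosed_le (hc 1).abs continuous_const))
  refine Metric.isCompact_of_isClosed_isBounded hcl ?_
  refine (Metric.isBounded_closedBall (x := (0 : E3)) (r := Real.sqrt (r ^ 2 + r ^ 2 +
    (r ^ 2 + r ^ 2) ^ 2))).subset fun x hx => ?_
  obtain ⟨h1, h2, h3⟩ := hx
  rw [mem_closedBall_zero_iff, EuclideanSpace.norm_eq]
  refine Real.sqrt_le_sqrt ?_
  rw [Fin.sum_univ_three, Real.norm_eq_abs, Real.norm_eq_abs, Real.norm_eq_abs, sq_abs, sq_abs, sq_abs]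
  have a0 : x 0 ^ 2 ≤ r ^ 2 := sq_le_sq' (abs_le.1 h2).1 (abs_le.1 h2).2
  have a1 : x 1 ^ 2 ≤ r ^ 2 := sq_le_sq' (abs_le.1 h3).1 (abs_le.1 h3).2
  have a2 : x 2 ^ 2 ≤ (r ^ 2 + r ^ 2) ^ 2 := by
    rw [h1]
    gcongr
  linarith

end Vale.Agent.P122.FI
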