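import Vale.Agent.P122.FI.Asm

/-! # The Fourier restriction conjecture in `ℝ³` for positively curved surfaces -/

open MeasureTheory Complex Set
open scoped ENNReal NNReal ContDiff

namespace Vale.Agent.P122.Final

/-- `S ⊆ ℝ³` is a smooth embedded surface whose second fundamental form is definite at every point:
near each of its points, `S` is the zero set of a smooth function `F` with nonvanishing differential, and
the second derivative of `F` is positive definite on the tangent planes of `S` (the sign of `F` is free,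
so this says that the second fundamental form is definite, i.e. the Gaussian curvature is positive). -/
def PositivelyCurved (S : Set (EuclideanSpace ℝ (Fin 3))) : Prop :=
  ∀ p ∈ S, ∃ (U : Set (EuclideanSpace ℝ (Fin 3))) (F : EuclideanSpace ℝ (Fin 3) → ℝ),
    IsOpen U ∧ p ∈ U ∧ ContDiffOn ℝ ∞ F U ∧ S ∩ U = {x | x ∈ U ∧ F x = 0} ∧
    ∀ x ∈ S ∩ U, fderiv ℝ F x ≠ 0 ∧
      ∀ v : EuclideanSpace ℝ (Fin 3), v ≠ 0 → fderiv ℝ F x v = 0 →
        0 < fderiv ℝ (fderiv ℝ F) x v v

/-- The surface measure of `Sg`: the two-dimensional Hausdorff measure on `Sg`, normalised to be the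
area (Mathlib's `μH[2]` is `4 / π` times the area). -/
noncomputable def surfaceMeasure (Sg : Set (EuclideanSpace ℝ (Fin 3))) :
    Measure (EuclideanSpace ℝ (Fin 3)) :=
  ENNReal.ofReal (Real.pi / 4) •
    (Measure.hausdorffMeasure 2 : Measure (EuclideanSpace ℝ (Fin 3))).restrict Sg

/-- The Fourier extension operator of `Sg`. -/
noncomputable def extension (Sg : Set (EuclideanSpace ℝ (Fin 3)))
    (f : EuclideanSpace ℝ (Fin 3) → ℂ) (x : EuclideanSpace ℝ (Fin 3)) : ℂ :=
  ∫ ξ, f ξ * cexp (2 * Real.pi * I * (inner ℝ x ξ : ℝ)) ∂(surfaceMeasure Sg)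

theorem of_question1 (h : Vale.Agent.P122.FI.Question1) :
    ∀ S : Set (EuclideanSpace ℝ (Fin 3)), PositivelyCurved S →
    ∀ Sg : Set (EuclideanSpace ℝ (Fin 3)), Sg ⊆ S → IsCompact Sg →
    ∀ p : ℝ, 3 < p → ∃ C : ℝ≥0, ∀ f : EuclideanSpace ℝ (Fin 3) → ℂ,
      MemLp f (ENNReal.ofReal p) (surfaceMeasure Sg) →
      eLpNorm (extension Sg f) (ENNReal.ofReal p) volume ≤
        C * eLpNorm f (ENNReal.ofReal p) (surfaceMeasure Sg) := by
  intro S hS Sg hSg hc p hp
  obtain ⟨C, hC⟩ := h S hS Sg hSg hc p hp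
  refine ⟨C, fun f hf => ?_⟩
  obtain ⟨g, hg, hfg⟩ := hf.1
  have h1 := hC g hg.measurable
  have e : extension Sg f = Vale.Agent.P122.FI.extension Sg g := by
    funext x
    unfold extension Vale.Agent.P122.FI.extension
    exact integral_congr_ae (hfg.mono fun ξ hξ => by simp only; rw [hξ])
  rw [e, eLpNorm_congr_ae hfg]
  exact h1

end Vale.Agent.P122.Final
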