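import Vale.Agent.P122.FI.Loc

/-! # The localised piece -/

open MeasureTheory Complex Set FourierTransform SchwartzMap
open scoped ENNReal NNReal ContDiff

set_option linter.all false

namespace Vale.Agent.P122.FI

theorem continuous_gr {h : ℝ × ℝ → ℝ} (hh : Continuous h) : Continuous (gr h) := by
  unfold gr
  refine (PiLp.continuous_toLp 2 _).comp ?_
  refine continuous_pi fun i => ?_
  fin_cases i
  · exact continuous_fst
  · exact continuous_snd
  · exact hh

theorem inner_gr (h : ℝ × ℝ → ℝ) (x : E3) (y : ℝ × ℝ) :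
    (inner ℝ x (gr h y) : ℝ) = x 0 * y.1 + x 1 * y.2 + x 2 * h y := by
  rw [PiLp.inner_apply, Fin.sum_univ_three]
  simp [gr]
  ring

theorem Ext_eq (h : ℝ × ℝ → ℝ) (f : ℝ × ℝ → ℂ) (x : E3) : Ext h f x = ∫ y, f y * ec (inner ℝ x (gr h y)) := by
  unfold Ext ec
  simp_rw [inner_gr]

theorem measurableSet_sq (r : ℝ) : MeasurableSet (sq r) := measurableSet_Icc.prod measurableSet_Icc

theorem isCompact_sq (r : ℝ) : IsCompact (sq r) := isCompact_Icc.prod isCompact_Icc

theorem volume_sq_lt (r : ℝ) : volume (sq r) < ⊤ := (isCompact_sq r).measure_lt_top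

/-- the kernel of the localisation -/
noncomputable def kR (R : ℝ) (ξ : E3) : ℂ := (R : ℂ) ^ 3 * bb (R • ξ)

theorem continuous_kR (R : ℝ) : Continuous (kR R) := by
  unfold kR
  exact continuous_const.mul (continuous_bb.comp (by fun_prop))

theorem kR_supp {R : ℝ} (hR : 0 < R) {ξ : E3} (h : kR R ξ ≠ 0) : ‖ξ‖ ≤ 1 / (8 * R) := by
  unfold kR at h
  have h1 := bb_supp (right_ne_zero_of_mul h)
  rw [norm_smul, Real.norm_of_nonneg hR.le] at h1
  rw [le_div_iff₀ (by positivity)]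
  nlinarith

theorem integral_kR {R : ℝ} (hR : 0 < R) (a x : E3) :
    ∫ ξ, kR R (ξ - a) * ec (inner ℝ x ξ) = ec (inner ℝ x a) * ph (R⁻¹ • x) := by
  have h1 : ∫ ξ, kR R (ξ - a) * ec (inner ℝ x ξ) = ∫ ξ, kR R ξ * ec (inner ℝ x (ξ + a)) := by
    rw [← integral_sub_right_eq_self (fun ξ => kR R ξ * ec (inner ℝ x (ξ + a))) a]
    simp_rw [sub_add_cancel]
  rw [h1]
  have h2 : ∀ ξ : E3, kR R ξ * ec (inner ℝ x (ξ + a)) =
      (fun ζ : E3 => ec (inner ℝ x a) * ((R : ℂ) ^ 3 * (bb ζ * ec (inner ℝ (R⁻¹ • x) ζ)))) (R • ξ) := by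
    intro ξ
    simp only [kR]
    rw [inner_add_right, ec_add, inner_smul_left, inner_smul_right]
    have : (starRingEnd ℝ) R⁻¹ * (R * (inner ℝ x ξ : ℝ)) = inner ℝ x ξ := by
      simp
      field_simp
    rw [this]
    ring
  simp_rw [h2]
  rw [Measure.integral_comp_smul (volume : Measure E3) (fun ζ : E3 => ec (inner ℝ x a) * ((R : ℂ) ^ 3 * (bb ζ * ec (inner ℝ (R⁻¹ • x) ζ)))) R]
  rw [integral_const_mul, integral_const_mul, finrank_euclideanSpace_fin]
  rw [abs_of_pos (by positivity), Complex.real_smul]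
  unfold ph
  have hR' : (R : ℂ) ≠ 0 := by exact_mod_cast hR.ne'
  push_cast
  field_simp

/-- the localised density -/
noncomputable def gR (h : ℝ × ℝ → ℝ) (f : ℝ × ℝ → ℂ) (R : ℝ) (ξ : E3) : ℂ := ∫ y, f y * kR R (ξ - gr h y)

theorem meas_joint {h : ℝ × ℝ → ℝ} {f : ℝ × ℝ → ℂ} (hh : Continuous h) (hf : Measurable f) (R : ℝ) :
    Measurable fun z : E3 × (ℝ × ℝ) => f z.2 * kR R (z.1 - gr h z.2) :=
  (hf.comp measurable_snd).mul ((continuous_kR R).comp
    (continuous_fst.sub ((continuous_gr hh).comp continuous_snd))).measurable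

theorem measurable_gR {h : ℝ × ℝ → ℝ} {f : ℝ × ℝ → ℂ} (hh : Continuous h) (hf : Measurable f) (R : ℝ) :
    Measurable (gR h f R) := by
  have h1 := (meas_joint hh hf R).stronglyMeasurable
  exact (h1.integral_prod_right (ν := (volume : Measure (ℝ × ℝ)))).measurable

theorem gR_supp {h : ℝ × ℝ → ℝ} {f : ℝ × ℝ → ℂ} {r R : ℝ} (hR : 0 < R) (hs : ∀ y, y ∉ sq r → f y = 0) {ξ : E3}
    (hξ : gR h f R ξ ≠ 0) : ∃ y ∈ sq r, ‖ξ - gr h y‖ ≤ 1 / (8 * R) := by
  by_contra hcon
  push Not at hcon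
  apply hξ
  unfold gR
  rw [← integral_zero (ℝ × ℝ) ℂ (μ := volume)]
  congr 1
  ext y
  by_cases hy : y ∈ sq r
  · have h1 := hcon y hy
    have h2 : kR R (ξ - gr h y) = 0 := by
      by_contra h3
      exact absurd (kR_supp hR h3) (not_le.2 h1)
    rw [h2, mul_zero]
  · rw [hs y hy, zero_mul]

theorem gR_bdd : ∃ C : ℝ, 0 ≤ C ∧ ∀ (h : ℝ × ℝ → ℝ) (f : ℝ × ℝ → ℂ) (B R : ℝ), 0 < R → (∀ y, ‖f y‖ ≤ B) →
    ∀ ξ, ‖gR h f R ξ‖ ≤ C * R * B := by
  obtain ⟨B0, hB0, hb⟩ := exists_bb_bdd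
  refine ⟨B0, hB0, ?_⟩
  intro h f B R hR hf ξ
  have hB : 0 ≤ B := (norm_nonneg _).trans (hf 0)
  set Q : Set (ℝ × ℝ) := Icc (ξ 0 - 1 / (8 * R)) (ξ 0 + 1 / (8 * R)) ×ˢ Icc (ξ 1 - 1 / (8 * R)) (ξ 1 + 1 / (8 * R)) with hQ
  have hQm : MeasurableSet Q := measurableSet_Icc.prod measurableSet_Icc
  have hQv : volume.real Q = (1 / (4 * R)) ^ 2 := by
    have h1 : (volume : Measure (ℝ × ℝ)) = (volume : Measure ℝ).prod volume := rfl
    rw [hQ, h1, measureReal_prod_prod, Real.volume_real_Icc_of_le (by have : 0 < 1 / (8 * R) := by positivity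
                                                                      linarith),
      Real.volume_real_Icc_of_le (by have : 0 < 1 / (8 * R) := by positivity
                                     linarith)]
    field_simp
    ring
  have hQt : volume Q ≠ ⊤ := ((isCompact_Icc.prod isCompact_Icc).measure_lt_top).ne
  have hpt : ∀ y, ‖f y * kR R (ξ - gr h y)‖ ≤ Q.indicator (fun _ => B * (R ^ 3 * B0)) y := by
    intro y
    by_cases hy : kR R (ξ - gr h y) = 0
    · rw [hy, mul_zero, norm_zero]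
      apply indicator_nonneg
      intro _ _
      positivity
    · have h1 := kR_supp hR hy
      have h2 : y ∈ Q := by
        have e0 : |ξ 0 - y.1| ≤ 1 / (8 * R) := by
          have := (PiLp.norm_apply_le (ξ - gr h y) 0).trans h1
          simpa [gr] using this
        have e1 : |ξ 1 - y.2| ≤ 1 / (8 * R) := by
          have := (PiLp.norm_apply_le (ξ - gr h y) 1).trans h1
          simpa [gr] using this
        rw [abs_le] at e0 e1
        refine ⟨⟨?_, ?_⟩, ⟨?_, ?_⟩⟩ <;> simp only <;> linarith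
      rw [indicator_of_mem h2, norm_mul]
      apply mul_le_mul (hf y) _ (norm_nonneg _) hB
      unfold kR
      rw [norm_mul, norm_pow, Complex.norm_real, Real.norm_of_nonneg hR.le]
      exact mul_le_mul_of_nonneg_left (hb _) (by positivity)
  unfold gR
  have hint : Integrable (Q.indicator (fun _ : ℝ × ℝ => B * (R ^ 3 * B0))) := by
    rw [integrable_indicator_iff hQm]
    exact integrableOn_const hQt
  refine (norm_integral_le_integral_norm _).trans ?_
  refine (integral_mono_of_nonneg (Filter.Eventually.of_forall fun _ => norm_nonneg _) hint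
    (Filter.Eventually.of_forall hpt)).trans ?_
  rw [integral_indicator_const _ hQm, hQv, smul_eq_mul]
  have : (1 / (4 * R)) ^ 2 * (B * (R ^ 3 * B0)) = B0 * R * B / 16 := by
    field_simp
    ring
  rw [this]
  have : 0 ≤ B0 * R * B := by positivity
  linarith

theorem gR_memLp {h : ℝ × ℝ → ℝ} {f : ℝ × ℝ → ℂ} {r R B : ℝ} (hh : Continuous h) (hf : Measurable f) (hR : 0 < R)
    (hs : ∀ y, y ∉ sq r → f y = 0) (hB : ∀ y, ‖f y‖ ≤ B) (p : ℝ≥0∞) : MemLp (gR h f R) p volume := by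
  obtain ⟨C, hC, hbd⟩ := gR_bdd
  have hcpt : IsCompact (Metric.cthickening (1 / (8 * R)) (gr h '' sq r)) :=
    ((isCompact_sq r).image (continuous_gr hh)).cthickening
  apply memLp_bdd_supp (measurable_gR hh hf R) (hbd h f B R hR hB) hcpt.measurableSet hcpt.measure_lt_top
  intro ξ hξ
  by_contra h0
  obtain ⟨y, hy, hd⟩ := gR_supp hR hs h0
  apply hξ
  apply Metric.mem_cthickening_of_dist_le ξ (gr h y) _ _ (mem_image_of_mem _ hy)
  rwa [dist_eq_norm]

/-- the Fourier transform of the localised density -/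
theorem gR_fourier {h : ℝ × ℝ → ℝ} {f : ℝ × ℝ → ℂ} {r R B : ℝ} (hh : Continuous h) (hf : Measurable f) (hR : 0 < R)
    (hs : ∀ y, y ∉ sq r → f y = 0) (hB : ∀ y, ‖f y‖ ≤ B) (x : E3) :
    ∫ ξ, gR h f R ξ * ec (inner ℝ x ξ) = ph (R⁻¹ • x) * Ext h f x := by
  obtain ⟨B0, hB0, hb⟩ := exists_bb_bdd
  have hcpt : IsCompact (Metric.cthickening (1 / (8 * R)) (gr h '' sq r)) :=
    ((isCompact_sq r).image (continuous_gr hh)).cthickening
  have hB1 : 0 ≤ B := (norm_nonneg _).trans (hB 0)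
  have hint : Integrable (fun z : E3 × (ℝ × ℝ) => f z.2 * kR R (z.1 - gr h z.2) * ec (inner ℝ x z.1))
      ((volume : Measure E3).prod (volume : Measure (ℝ × ℝ))) := by
    have hec : Measurable fun z : E3 × (ℝ × ℝ) => ec (inner ℝ x z.1) := by
      apply Continuous.measurable
      exact continuous_ec.comp (by fun_prop)
    have hmm : Measurable fun z : E3 × (ℝ × ℝ) => f z.2 * kR R (z.1 - gr h z.2) * ec (inner ℝ x z.1) :=
      (meas_joint hh hf R).mul hec
    apply integrable_bdd_supp (B := B * (R ^ 3 * B0)) (s := (Metric.cthickening (1 / (8 * R)) (gr h '' sq r)) ×ˢ sq r)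
      hmm
    · intro z
      rw [norm_mul, norm_mul, norm_ec, mul_one]
      apply mul_le_mul (hB _) _ (norm_nonneg _) hB1
      unfold kR
      rw [norm_mul, norm_pow, Complex.norm_real, Real.norm_of_nonneg hR.le]
      exact mul_le_mul_of_nonneg_left (hb _) (by positivity)
    · exact hcpt.measurableSet.prod (measurableSet_sq r)
    · rw [Measure.prod_prod]
      exact ENNReal.mul_lt_top hcpt.measure_lt_top (volume_sq_lt r)
    · intro z hz
      by_cases h2 : z.2 ∈ sq r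
      · have h1 : z.1 ∉ Metric.cthickening (1 / (8 * R)) (gr h '' sq r) := fun h1 => hz ⟨h1, h2⟩
        have h3 : kR R (z.1 - gr h z.2) = 0 := by
          by_contra h4
          apply h1
          apply Metric.mem_cthickening_of_dist_le z.1 (gr h z.2) _ _ (mem_image_of_mem _ h2)
          rw [dist_eq_norm]
          exact kR_supp hR h4
        rw [h3]
        simp
      · rw [hs _ h2]
        simp
  calc ∫ ξ, gR h f R ξ * ec (inner ℝ x ξ) = ∫ ξ, ∫ y, f y * kR R (ξ - gr h y) * ec (inner ℝ x ξ) := by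
        refine integral_congr_ae (Filter.Eventually.of_forall fun ξ => ?_)
        simp only [gR]
        rw [← integral_mul_const]
    _ = ∫ y, ∫ ξ, f y * kR R (ξ - gr h y) * ec (inner ℝ x ξ) := integral_integral_swap hint
    _ = ∫ y, f y * (ec (inner ℝ x (gr h y)) * ph (R⁻¹ • x)) := by
        refine integral_congr_ae (Filter.Eventually.of_forall fun y => ?_)
        simp only
        simp_rw [mul_assoc]
        rw [integral_const_mul, integral_kR hR]
    _ = ph (R⁻¹ • x) * Ext h f x := by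
        rw [Ext_eq, ← integral_const_mul]
        refine integral_congr_ae (Filter.Eventually.of_forall fun y => ?_)
        simp only
        ring

theorem gR_planch {h : ℝ × ℝ → ℝ} {f : ℝ × ℝ → ℂ} {r R B : ℝ} (hh : Continuous h) (hf : Measurable f) (hR : 0 < R)
    (hs : ∀ y, y ∉ sq r → f y = 0) (hB : ∀ y, ‖f y‖ ≤ B) :
    ∫⁻ ξ, ‖gR h f R ξ‖ₑ ^ 2 = ∫⁻ x, ‖ph (R⁻¹ • x) * Ext h f x‖ₑ ^ 2 := by
  have h1 := planch (gR h f R) (memLp_one_iff_integrable.1 (gR_memLp hh hf hR hs hB 1)) (gR_memLp hh hf hR hs hB 2)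
  rw [← h1]
  refine lintegral_congr fun x => ?_
  rw [← gR_fourier hh hf hR hs hB x]
  rfl

/-- the energy of the localised density -/
theorem gR_energy (K : ℕ) : ∃ C : ℝ, 0 ≤ C ∧ ∀ (h : ℝ × ℝ → ℝ) (f : ℝ × ℝ → ℂ) (r R B : ℝ), Continuous h →
    Measurable f → 0 < R → (∀ y, y ∉ sq r → f y = 0) → (∀ y, ‖f y‖ ≤ B) →
    ∫⁻ ξ, ‖gR h f R ξ‖ₑ ^ 2 ≤
      ENNReal.ofReal C * ∫⁻ x : E3, ‖Ext h f x‖ₑ ^ 2 * ENNReal.ofReal (((1 + ‖x‖ / R) ^ K)⁻¹) := by
  obtain ⟨C, hC, hd⟩ := ph_decay K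
  refine ⟨C ^ 2, by positivity, ?_⟩
  intro h f r R B hh hf hR hs hB
  rw [gR_planch hh hf hR hs hB, ← lintegral_const_mul' _ _ ENNReal.ofReal_ne_top]
  refine lintegral_mono fun x => ?_
  simp only
  rw [enorm_mul, mul_pow, ← mul_assoc, mul_comm (ENNReal.ofReal (C ^ 2)), mul_assoc, mul_comm (‖ph (R⁻¹ • x)‖ₑ ^ 2)]
  refine mul_le_mul_right ?_ _
  rw [← ofReal_norm, ← ENNReal.ofReal_pow (norm_nonneg _), ← ENNReal.ofReal_mul (by positivity)]
  apply ENNReal.ofReal_le_ofReal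
  have h1 := hd (R⁻¹ • x)
  have e : ‖R⁻¹ • x‖ = ‖x‖ / R := by
    rw [norm_smul, norm_inv, Real.norm_of_nonneg hR.le, div_eq_inv_mul]
  rw [e] at h1
  have hw : 0 < (1 + ‖x‖ / R) ^ K := by positivity
  have hw1 : ((1 + ‖x‖ / R) ^ K)⁻¹ ≤ 1 := by
    apply inv_le_one_of_one_le₀
    apply one_le_pow₀
    have : 0 ≤ ‖x‖ / R := by positivity
    linarith
  calc ‖ph (R⁻¹ • x)‖ ^ 2 ≤ (C * ((1 + ‖x‖ / R) ^ K)⁻¹) ^ 2 := pow_le_pow_left₀ (norm_nonneg _) h1 2
    _ = C ^ 2 * (((1 + ‖x‖ / R) ^ K)⁻¹ * ((1 + ‖x‖ / R) ^ K)⁻¹) := by ring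
    _ ≤ C ^ 2 * (((1 + ‖x‖ / R) ^ K)⁻¹ * 1) := by gcongr
    _ = _ := by ring

end Vale.Agent.P122.FI
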