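import Vale.Agent.P122.FI.Defs

/-! # P122 / FI : Question 1 from the estimate on small graph pieces (compactness) -/

open MeasureTheory Complex Set Filter Topology
open scoped ENNReal NNReal ContDiff

set_option linter.all false

namespace Vale.Agent.P122.FI

theorem surf_mono {A B : Set E3} (h : A ⊆ B) : surf A ≤ surf B := by
  refine Measure.le_iff.2 fun s _ => ?_
  unfold surf
  rw [Measure.smul_apply, Measure.smul_apply]
  exact mul_le_mul_right (Measure.restrict_mono h le_rfl s) _

theorem surf_union {A B : Set E3} (hB : MeasurableSet B) (h : Disjoint A B) :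
    surf (A ∪ B) = surf A + surf B := by
  unfold surf
  rw [Measure.restrict_union h hB, smul_add]

theorem norm_ker (x ξ : E3) : ‖cexp (2 * Real.pi * I * (inner ℝ x ξ : ℝ))‖ = 1 := by
  have : (2 * Real.pi * I * ((inner ℝ x ξ : ℝ) : ℂ)) = ((2 * Real.pi * (inner ℝ x ξ : ℝ) : ℝ) : ℂ) * I := by
    push_cast; ring
  rw [this, Complex.norm_exp_ofReal_mul_I]

theorem cont_ker (x : E3) : Continuous fun ξ : E3 => cexp (2 * Real.pi * I * (inner ℝ x ξ : ℝ)) := by
  fun_prop

theorem integrable_ker_iff {μ : Measure E3} {f : E3 → ℂ} (hf : Measurable f) (x : E3) :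
    Integrable (fun ξ => f ξ * cexp (2 * Real.pi * I * (inner ℝ x ξ : ℝ))) μ ↔ Integrable f μ := by
  have hm : AEStronglyMeasurable (fun ξ => f ξ * cexp (2 * Real.pi * I * (inner ℝ x ξ : ℝ))) μ :=
    (hf.mul (cont_ker x).measurable).aestronglyMeasurable
  rw [← integrable_norm_iff hm, ← integrable_norm_iff hf.aestronglyMeasurable]
  have : (fun ξ => ‖f ξ * cexp (2 * Real.pi * I * (inner ℝ x ξ : ℝ))‖) = fun ξ => ‖f ξ‖ := by
    funext ξ
    rw [norm_mul, norm_ker, mul_one]
  rw [this]

theorem Diag.empty (p : ℝ) : Diag ∅ p := by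
  refine ⟨0, fun f _ => ?_⟩
  have : extension ∅ f = fun _ => 0 := by
    funext x
    simp [extension, surf]
  rw [this]
  simp

theorem Diag.union {A B : Set E3} {p : ℝ} (hp : 1 ≤ p) (hB : MeasurableSet B) (h : Disjoint A B)
    (hA' : Diag A p) (hB' : Diag B p) : Diag (A ∪ B) p := by
  obtain ⟨C1, h1⟩ := hA'
  obtain ⟨C2, h2⟩ := hB'
  refine ⟨C1 + C2, fun f hf => ?_⟩
  by_cases hint : Integrable f (surf (A ∪ B))
  · rw [surf_union hB h, integrable_add_measure] at hint
    have e : extension (A ∪ B) f = extension A f + extension B f := by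
      funext x
      unfold extension
      rw [surf_union hB h, integral_add_measure ((integrable_ker_iff hf x).2 hint.1) ((integrable_ker_iff hf x).2 hint.2)]
      rfl
    have hmA : AEStronglyMeasurable (extension A f) volume := by
      have : Continuous (extension A f) := by
        unfold extension
        refine continuous_of_dominated (bound := fun ξ => ‖f ξ‖) ?_ ?_ ?_ ?_
        · intro x; exact ((integrable_ker_iff hf x).2 hint.1).aestronglyMeasurable
        · intro x
          filter_upwards with ξ
          rw [norm_mul, norm_ker, mul_one]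
        · exact hint.1.norm
        · filter_upwards with ξ
          fun_prop
      exact this.aestronglyMeasurable
    have hmB : AEStronglyMeasurable (extension B f) volume := by
      have : Continuous (extension B f) := by
        unfold extension
        refine continuous_of_dominated (bound := fun ξ => ‖f ξ‖) ?_ ?_ ?_ ?_
        · intro x; exact ((integrable_ker_iff hf x).2 hint.2).aestronglyMeasurable
        · intro x
          filter_upwards with ξ
          rw [norm_mul, norm_ker, mul_one]
        · exact hint.2.norm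
        · filter_upwards with ξ
          fun_prop
      exact this.aestronglyMeasurable
    rw [e]
    refine (eLpNorm_add_le hmA hmB (by rw [← ENNReal.ofReal_one]; exact ENNReal.ofReal_le_ofReal hp)).trans ?_
    rw [ENNReal.coe_add, add_mul]
    refine add_le_add ((h1 f hf).trans ?_) ((h2 f hf).trans ?_)
    · gcongr
      exact surf_mono subset_union_left
    · gcongr
      exact surf_mono subset_union_right
  · have : extension (A ∪ B) f = fun _ => 0 := by
      funext x
      unfold extension
      exact integral_undef (fun hh => hint ((integrable_ker_iff hf x).1 hh))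
    rw [this]
    simp

/-- Question 1 from the three blocks -/
theorem question1_of (hG : GRAPH) (hC : CHART) (hP : PIECE) : Question1 := by
  intro S hS Sg hSg hcpt p hp
  have key : ∃ s' : Set E3, MeasurableSet s' ∧ Sg ⊆ s' ∧
      ∀ T : Set E3, MeasurableSet T → T ⊆ s' ∩ S → Diag T p := by
    refine hcpt.induction_on (p := fun s => ∃ s' : Set E3, MeasurableSet s' ∧ s ⊆ s' ∧
      ∀ T : Set E3, MeasurableSet T → T ⊆ s' ∩ S → Diag T p) ?_ ?_ ?_ ?_
    · refine ⟨∅, MeasurableSet.empty, le_rfl, fun T _ hT => ?_⟩
      have : T = ∅ := by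
        rw [Set.empty_inter] at hT
        exact Set.subset_eq_empty hT rfl
      rw [this]
      exact Diag.empty p
    · rintro s t hst ⟨s', h1, h2, h3⟩
      exact ⟨s', h1, hst.trans h2, h3⟩
    · rintro s t ⟨s', h1, h2, h3⟩ ⟨t', k1, k2, k3⟩
      refine ⟨s' ∪ t', h1.union k1, Set.union_subset_union h2 k2, fun T hT hTs => ?_⟩
      have e : T = (T \ s') ∪ (T ∩ s') := (Set.diff_union_inter T s').symm
      rw [e]
      refine Diag.union (by linarith) (hT.inter h1) Set.disjoint_sdiff_inter ?_ ?_
      · refine k3 _ (hT.diff h1) fun ξ hξ => ?_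
        rcases (hTs hξ.1).1 with h | h
        · exact absurd h hξ.2
        · exact ⟨h, (hTs hξ.1).2⟩
      · exact h3 _ (hT.inter h1) fun ξ hξ => ⟨hξ.2, (hTs hξ.1).2⟩
    · intro q hq
      obtain ⟨A, h, hh, hV⟩ := hC S hS q (hSg hq)
      obtain ⟨r, hr, hr'⟩ := hG h hh
      obtain ⟨C, hC'⟩ := hr' p hp
      obtain ⟨V, hVo, hqV, hVS⟩ := hV r hr
      refine ⟨V, mem_nhdsWithin_of_mem_nhds (hVo.mem_nhds hqV), V, hVo.measurableSet, le_rfl, fun T hT hTs => ?_⟩
      refine hP q A h r p C hh hr (by linarith) hC' T hT fun ξ hξ => hVS ξ ⟨(hTs hξ).2, (hTs hξ).1⟩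
  obtain ⟨s', h1, h2, h3⟩ := key
  exact h3 Sg hcpt.measurableSet fun ξ hξ => ⟨h2 hξ, hSg hξ⟩

end Vale.Agent.P122.FI
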